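import Mathlib.Combinatorics.SetFamily.KruskalKatona

/-!
A relation expressing the Kruskal-Katona growth bound, and its cone recursion.
-/

namespace Vale.Agent.P200.SmallH2

open Finset

/-- There is a family of at least `t` sets of size `d + 1` with at most `m` sets in its shadow. -/
def Feas (d m t : ℕ) : Prop :=
  ∃ N, ∃ 𝒜 : Finset (Finset (Fin N)),
    (𝒜 : Set (Finset (Fin N))).Sized (d + 1) ∧ (shadow 𝒜).card ≤ m ∧ t ≤ 𝒜.card

lemma Feas.mono {d m m' t t' : ℕ} (h : Feas d m t) (hm : m ≤ m') (ht : t' ≤ t) :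
    Feas d m' t' :=
  let ⟨N, A, h1, h2, h3⟩ := h
  ⟨N, A, h1, h2.trans hm, ht.trans h3⟩

lemma feas_zero (d m : ℕ) : Feas d m 0 :=
  ⟨0, ∅, by simp [Set.Sized], by simp, Nat.zero_le _⟩

lemma exists_isInitSeg (N r : ℕ) :
    ∀ k, k ≤ N.choose r → ∃ C : Finset (Finset (Fin N)), Colex.IsInitSeg C r ∧ C.card = k := by
  classical
  suffices H : ∀ j, j ≤ N.choose r → ∃ C : Finset (Finset (Fin N)),
      Colex.IsInitSeg C r ∧ C.card = N.choose r - j by
    intro k hk
    obtain ⟨C, h1, h2⟩ := H (N.choose r - k) (by omega)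
    exact ⟨C, h1, by omega⟩
  intro j
  induction j with
  | zero =>
    intro _
    refine ⟨powersetCard r univ, ⟨Set.sized_powersetCard _ _, fun s t _ h => ?_⟩, by simp⟩
    exact mem_powersetCard.2 ⟨subset_univ _, h.2⟩
  | succ j ih =>
    intro hj
    obtain ⟨C, hC, hcard⟩ := ih (by omega)
    obtain ⟨s, hs, hmax⟩ := exists_max_image C (fun s => toColex s) (card_pos.1 (by omega))
    refine ⟨C.erase s, ⟨hC.1.mono (by simp), fun a b ha hb => ?_⟩, by
      rw [card_erase_of_mem hs]; omega⟩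
    refine mem_erase.2 ⟨?_, hC.2 (mem_of_mem_erase ha) hb⟩
    rintro rfl
    exact (hmax a (mem_of_mem_erase ha)).not_gt hb.1

lemma exists_embed {N M d : ℕ} (hNM : N ≤ M) {A : Finset (Finset (Fin N))}
    (hA : (A : Set (Finset (Fin N))).Sized d) :
    ∃ B : Finset (Finset (Fin M)), (B : Set (Finset (Fin M))).Sized d ∧
      (shadow B).card ≤ (shadow A).card ∧ B.card = A.card := by
  classical
  refine ⟨A.image (fun s => s.map (Fin.castLEEmb hNM)), ?_, ?_, ?_⟩
  · intro s hs
    obtain ⟨t, ht, rfl⟩ := mem_image.1 hs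
    rw [card_map]
    exact hA ht
  · refine (card_le_card (t := (shadow A).image (fun s => s.map (Fin.castLEEmb hNM))) ?_).trans
      card_image_le
    intro t ht
    obtain ⟨s, hs, a, ha, rfl⟩ := mem_shadow_iff.1 ht
    obtain ⟨u, hu, rfl⟩ := mem_image.1 hs
    obtain ⟨b, hb, rfl⟩ := mem_map.1 ha
    exact mem_image.2 ⟨u.erase b, erase_mem_shadow hu hb, map_erase _ _ _⟩
  · exact card_image_of_injective _ (map_injective _)

/-- A feasible pair is realised by an initial segment on any large enough ground set. -/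
lemma Feas.exists_isInitSeg_fin {d m t : ℕ} (h : Feas d m t) {M : ℕ}
    (hM : ∀ N, ∀ A : Finset (Finset (Fin N)), (A : Set (Finset (Fin N))).Sized (d + 1) →
      (shadow A).card ≤ m → t ≤ A.card →
      ∃ B : Finset (Finset (Fin M)), (B : Set (Finset (Fin M))).Sized (d + 1) ∧
        (shadow B).card ≤ m ∧ t ≤ B.card) :
    ∃ C : Finset (Finset (Fin M)), Colex.IsInitSeg C (d + 1) ∧ C.card = t ∧
      (shadow C).card ≤ m := by
  obtain ⟨N, A, h1, h2, h3⟩ := h
  obtain ⟨B, b1, b2, b3⟩ := hM N A h1 h2 h3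
  obtain ⟨C, hC, hCt⟩ := exists_isInitSeg M (d + 1) t (b3.trans (by simpa using b1.card_le))
  exact ⟨C, hC, hCt, (kruskal_katona b1 (by omega) hC).trans b2⟩

lemma le_choose_add (a d : ℕ) (hd : 1 ≤ d) : a ≤ (a + d).choose d := by
  induction d, hd using Nat.le_induction with
  | base => simp
  | succ d hd ih =>
    rw [← Nat.add_assoc, Nat.choose_succ_succ']
    omega

/-- The cone recursion for the Kruskal-Katona bound. -/
lemma Feas.cone {d a δ t₁ t₂ w : ℕ} (h1 : Feas (d + 1) a t₁) (h2 : Feas d δ t₂)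
    (hw₂ : w ≤ t₂) (hwa : w ≤ a) : Feas (d + 1) (a + δ) (t₁ + w) := by
  classical
  obtain ⟨N₁, A, hA, hA2, hA3⟩ := id h1
  obtain ⟨N₂, B, hB, hB2, hB3⟩ := id h2
  set M := N₁ + N₂ + (a + (d + 1)) with hMdef
  obtain ⟨A', hA'1, hA'2, hA'3⟩ := exists_embed (M := M) (by omega) hA
  obtain ⟨B', hB'1, hB'2, hB'3⟩ := exists_embed (M := M) (by omega) hB
  obtain ⟨C, hC, hCt⟩ := exists_isInitSeg M (d + 1 + 1) t₁
    (le_trans (le_of_le_of_eq hA3 hA'3.symm) (by simpa using hA'1.card_le))
  have hC2 : (shadow C).card ≤ a :=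
    (kruskal_katona hA'1 (by omega) hC).trans (hA'2.trans hA2)
  obtain ⟨D, hD, hDw⟩ := exists_isInitSeg M (d + 1) w
    (le_trans (le_trans hw₂ (le_of_le_of_eq hB3 hB'3.symm)) (by simpa using hB'1.card_le))
  have hD2 : (shadow D).card ≤ δ :=
    (kruskal_katona hB'1 (by omega) hD).trans (hB'2.trans hB2)
  obtain ⟨P, hP, hPa⟩ := exists_isInitSeg M (d + 1) a
    (le_trans (le_choose_add a (d + 1) (by omega)) (Nat.choose_le_choose _ (by omega)))
  have hCP : shadow C ⊆ P := by
    have hs : Colex.IsInitSeg (shadow C) (d + 1) := hC.shadow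
    rcases hs.total hP with h | h
    · exact h
    · exact (eq_of_subset_of_card_le h (by omega)).ge
  have hDP : D ⊆ P := by
    rcases hD.total hP with h | h
    · exact h
    · exact (eq_of_subset_of_card_le h (by omega)).ge
  let up : Finset (Fin M) → Finset (Fin (M + 1)) := fun s => s.map Fin.castSuccEmb
  let cn : Finset (Fin M) → Finset (Fin (M + 1)) := fun s => insert (Fin.last M) (up s)
  have hlast : ∀ s, Fin.last M ∉ up s := by
    intro s hs
    obtain ⟨x, -, hx⟩ := mem_map.1 hs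
    exact Fin.castSucc_ne_last x hx
  have hup : Function.Injective up := map_injective _
  have hcn : Function.Injective cn := fun s t h => hup (by
    have := congrArg (fun u => u.erase (Fin.last M)) h
    simpa [cn, erase_insert (hlast s), erase_insert (hlast t)] using this)
  refine ⟨M + 1, C.image up ∪ D.image cn, ?_, ?_, ?_⟩
  · intro s hs
    rcases mem_union.1 hs with hs | hs <;> obtain ⟨u, hu, rfl⟩ := mem_image.1 hs
    · simpa [up] using hC.1 hu
    · simp [cn, card_insert_of_notMem (hlast u), up, hD.1 hu]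
  · refine (card_le_card (t := P.image up ∪ (shadow D).image cn) ?_).trans
      ((card_union_le _ _).trans (add_le_add (card_image_le.trans hPa.le) (card_image_le.trans hD2)))
    intro s hs
    obtain ⟨u, hu, x, hx, rfl⟩ := mem_shadow_iff.1 hs
    rcases mem_union.1 hu with hu | hu <;> obtain ⟨v, hv, rfl⟩ := mem_image.1 hu
    · obtain ⟨y, hy, rfl⟩ := mem_map.1 hx
      exact mem_union_left _ (mem_image.2 ⟨v.erase y, hCP (erase_mem_shadow hv hy), map_erase _ _ _⟩)
    · rcases mem_insert.1 hx with rfl | hx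
      · rw [erase_insert (hlast v)]
        exact mem_union_left _ (mem_image.2 ⟨v, hDP hv, rfl⟩)
      · obtain ⟨y, hy, rfl⟩ := mem_map.1 hx
        refine mem_union_right _ (mem_image.2 ⟨v.erase y, erase_mem_shadow hv hy, ?_⟩)
        rw [erase_insert_of_ne fun e => hlast v (by rw [e]; exact mem_map_of_mem _ hy)]
        simp [cn, up, map_erase]
  · rw [card_union_of_disjoint, card_image_of_injective _ hup, card_image_of_injective _ hcn]
    · omega
    · rw [disjoint_left]
      intro s hs hs'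
      obtain ⟨u, -, rfl⟩ := mem_image.1 hs
      obtain ⟨v, -, hv⟩ := mem_image.1 hs'
      exact hlast u (hv ▸ mem_insert_self _ _)

/-- If the lower number fits in `Fin n`, a feasible pair is realised inside `Fin n`. -/
lemma Feas.in_fin {d m t n : ℕ} (h : Feas d m t) (hd : 1 ≤ d) (hm : m ≤ n.choose d) :
    ∃ B : Finset (Finset (Fin n)), (B : Set (Finset (Fin n))).Sized (d + 1) ∧
      (shadow B).card ≤ m ∧ t ≤ B.card := by
  classical
  obtain ⟨N, A, hA, hA2, hA3⟩ := h
  set M := N + n with hMdef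
  obtain ⟨A', a1, a2, a3⟩ := exists_embed (M := M) (by omega) hA
  obtain ⟨C, hC, hCt⟩ := exists_isInitSeg M (d + 1) t
    (le_trans (le_of_le_of_eq hA3 a3.symm) (by simpa using a1.card_le))
  have hC2 : (shadow C).card ≤ m := (kruskal_katona a1 (by omega) hC).trans (a2.trans hA2)
  let e : Fin n ↪ Fin M := Fin.castLEEmb (by omega)
  set P : Finset (Finset (Fin M)) := powersetCard d (univ.map e) with hPdef
  have hP : Colex.IsInitSeg P d := by
    refine ⟨Set.sized_powersetCard _ _, fun s t hs ht => mem_powersetCard.2 ⟨fun x hx => ?_, ht.2⟩⟩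
    have hlt : ∀ y ∈ s, (y : ℕ) < n := fun y hy => by
      obtain ⟨z, -, rfl⟩ := mem_map.1 ((mem_powersetCard.1 hs).1 hy)
      simp [e]
    have hx' : (x : ℕ) < n := by
      have : toColex (image Fin.val t) < toColex (image Fin.val s) := by
        rw [Colex.toColex_image_lt_toColex_image Fin.val_strictMono]; exact ht.1
      refine Colex.forall_lt_mono this.le ?_ (x : ℕ) (mem_image.2 ⟨x, hx, rfl⟩)
      intro y hy
      obtain ⟨z, hz, rfl⟩ := mem_image.1 hy
      exact hlt z hz
    exact mem_map.2 ⟨⟨x, hx'⟩, mem_univ _, by ext; simp [e]⟩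
  have hCP : shadow C ⊆ P := by
    rcases (hC.shadow : Colex.IsInitSeg (shadow C) d).total hP with h | h
    · exact h
    · refine (eq_of_subset_of_card_le h ?_).ge
      simp [hPdef]; omega
  let B : Finset (Finset (Fin n)) := univ.filter fun s => s.map e ∈ C
  have hBC : B.image (fun s => s.map e) = C := by
    ext u
    constructor
    · intro hu
      obtain ⟨s, hs, rfl⟩ := mem_image.1 hu
      exact (mem_filter.1 hs).2
    · intro hu
      have hsub : u ⊆ univ.map e := by
        intro x hx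
        have : 1 < u.card := by rw [hC.1 hu]; omega
        obtain ⟨y, hy, hyx⟩ := exists_mem_ne this x
        exact (mem_powersetCard.1 (hCP (erase_mem_shadow hu hy))).1 (mem_erase.2 ⟨hyx.symm, hx⟩)
      refine mem_image.2 ⟨univ.filter (fun i => e i ∈ u), mem_filter.2 ⟨mem_univ _, ?_⟩, ?_⟩ <;>
        [convert hu using 1; skip] <;>
      · ext x
        constructor
        · intro hx
          obtain ⟨z, hz, rfl⟩ := mem_map.1 hx
          exact (mem_filter.1 hz).2
        · intro hx
          obtain ⟨z, -, rfl⟩ := mem_map.1 (hsub hx)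
          exact mem_map.2 ⟨z, mem_filter.2 ⟨mem_univ _, hx⟩, rfl⟩
  refine ⟨B, ?_, ?_, ?_⟩
  · intro s hs
    have := hC.1 (mem_filter.1 hs).2
    simpa using this
  · refine le_trans ?_ hC2
    rw [← card_image_of_injective (shadow B) (map_injective e)]
    refine card_le_card fun u hu => ?_
    obtain ⟨s, hs, rfl⟩ := mem_image.1 hu
    obtain ⟨w, hw, a, ha, rfl⟩ := mem_shadow_iff.1 hs
    rw [map_erase]
    exact erase_mem_shadow (mem_filter.1 hw).2 (mem_map_of_mem _ ha)
  · rw [← hCt, ← hBC]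
    exact card_image_le

/-- Pairs from `m` points. -/
lemma feas_one {m t : ℕ} (h : t ≤ m.choose 2) : Feas 1 m t := by
  classical
  refine ⟨m, powersetCard 2 univ, Set.sized_powersetCard _ _, ?_, by simpa using h⟩
  refine (card_le_card (t := powersetCard 1 (univ : Finset (Fin m))) fun s hs => ?_).trans (by simp)
  exact mem_powersetCard.2 ⟨subset_univ _, (Set.sized_powersetCard (univ : Finset (Fin m)) 2).shadow hs⟩

lemma feas_two_nine : Feas 2 9 7 := by
  refine ⟨5, (powersetCard 3 univ).filter fun s => ¬ (0 ∈ s ∧ 1 ∈ s), ?_, ?_, ?_⟩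
  · exact fun s hs => (mem_powersetCard.1 (mem_filter.1 hs).1).2
  · decide
  · decide

lemma feas_two_ten : Feas 2 10 10 := by
  refine ⟨5, powersetCard 3 univ, Set.sized_powersetCard _ _, ?_, ?_⟩ <;> decide

lemma feas_four {m t : ℕ} (ht : t ≤ 1) (hm : t = 1 → 5 ≤ m) : Feas 4 m t := by
  rcases Nat.le_one_iff_eq_zero_or_eq_one.1 ht with rfl | rfl
  · exact feas_zero _ _
  · refine Feas.mono (m := 5) (t := 1) ?_ (hm rfl) le_rfl
    exact ⟨5, powersetCard 5 univ, Set.sized_powersetCard _ _, by decide, by decide⟩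

lemma feas_three {m t : ℕ} (ht : t ≤ 5) (hm : 10 ≤ m + (5 - t).choose 2) : Feas 3 m t := by
  have key : ∀ t : Fin 6, ∀ A : Finset (Finset (Fin 5)),
      A = (powersetCard 4 univ).filter (fun s => ∃ i : Fin 5, (i : ℕ) < (t : ℕ) ∧ i ∉ s) →
        (shadow A).card + (5 - (t : ℕ)).choose 2 ≤ 10 ∧ (t : ℕ) ≤ A.card := by
    rintro t A rfl
    revert t
    decide
  obtain ⟨h1, h2⟩ := key ⟨t, by omega⟩ _ rfl
  simp only at h1 h2
  exact ⟨5, _, fun s hs => (mem_powersetCard.1 (mem_filter.1 hs).1).2,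
    (Nat.le_of_add_le_add_right (h1.trans hm)), h2⟩

end Vale.Agent.P200.SmallH2
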