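import Vale.Agent.P200.SmallH2.Outer

/-!
Duality inside a complete intersection of `n` quadrics in `n` variables, and the transfer of
the monomial model to the linked family.
-/

namespace Vale.Agent.P200.SmallH2

open MvPolynomial Module

variable {K : Type*} [Field K] {n : ℕ}

local instance finiteHom5 (d : ℕ) : Module.Finite K (homogeneousSubmodule (Fin n) K d) :=
  Module.Finite.iff_fg.2 (homogeneousSubmodule_fg (Fin n) K d)

/-- Coefficients of `(1 + z) ^ k / (1 - z) ^ m`. -/
def mixCoeff : ℕ → ℕ → ℕ → ℕ
  | 0, m, d => m.multichoose d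
  | k + 1, m, 0 => mixCoeff k m 0
  | k + 1, m, d + 1 => mixCoeff k m (d + 1) + mixCoeff k m d

lemma mixCoeff_succ_right : ∀ k m d,
    mixCoeff k (m + 1) (d + 1) = mixCoeff k m (d + 1) + mixCoeff k (m + 1) d := by
  intro k
  induction k with
  | zero => intro m d; exact Nat.multichoose_succ_succ m d
  | succ k ih =>
    intro m d
    cases d with
    | zero =>
      simp only [mixCoeff]
      have := ih m 0
      have h0 : ∀ k, mixCoeff k (m + 1) 0 = mixCoeff k m 0 := fun k => by
        induction k with
        | zero => simp [mixCoeff]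
        | succ k ih => simp [mixCoeff, ih]
      have := h0 k
      omega
    | succ d =>
      simp only [mixCoeff]
      have := ih m (d + 1)
      have := ih m d
      omega

lemma mixCoeff_zero : ∀ k m, mixCoeff k m 0 = 1 := by
  intro k
  induction k with
  | zero => intro m; simp [mixCoeff]
  | succ k ih => intro m; simp [mixCoeff, ih]

lemma mixCoeff_choose : ∀ k d, mixCoeff k 0 d = k.choose d := by
  intro k
  induction k with
  | zero => intro d; cases d <;> simp [mixCoeff]
  | succ k ih =>
    intro d
    cases d with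
    | zero => simp [mixCoeff, ih]
    | succ d => simp [mixCoeff, ih, Nat.choose_succ_succ', Nat.add_comm]

lemma ciDim_eq_mixCoeff : ∀ k, k ≤ n → ∀ d, ciDim n k d = mixCoeff k (n - k) d := by
  intro k
  induction k with
  | zero => intro _ d; rw [ciDim, mixCoeff, Nat.sub_zero, Nat.multichoose_eq]
  | succ k ih =>
    intro hk d
    obtain ⟨m, hm, hm'⟩ : ∃ m, n - (k + 1) = m ∧ n - k = m + 1 := ⟨n - (k + 1), rfl, by omega⟩
    rw [ciDim, hm, ih (by omega), hm']
    match d with
    | 0 => simp [mixCoeff_zero]
    | 1 =>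
      rw [if_pos (by norm_num), mixCoeff, mixCoeff_succ_right, mixCoeff_zero, mixCoeff_zero]
    | d + 2 =>
      rw [if_neg (by omega), ih (by omega), hm', Nat.add_sub_cancel, mixCoeff]
      have h1 : mixCoeff k (m + 1) (d + 2) = mixCoeff k m (d + 2) + mixCoeff k (m + 1) (d + 1) :=
        mixCoeff_succ_right k m (d + 1)
      have h2 : mixCoeff k (m + 1) (d + 1) = mixCoeff k m (d + 1) + mixCoeff k (m + 1) d :=
        mixCoeff_succ_right k m d
      show _ = mixCoeff k m (d + 2) + mixCoeff k m (d + 1)
      omega

lemma ciDim_self (d : ℕ) : ciDim n n d = n.choose d := by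
  rw [ciDim_eq_mixCoeff n le_rfl, Nat.sub_self, mixCoeff_choose]

lemma exists_socle_functional {Q : GI K n} {J : Ideal (MvPolynomial (Fin n) K)} (hJ : Stage Q n J) :
    ∃ Φ : MvPolynomial (Fin n) K →ₗ[K] K, part J n ≤ LinearMap.ker Φ ∧
      ∀ b a, a + b = n → ∀ q ∈ homogeneousSubmodule (Fin n) K a,
        (∀ r ∈ homogeneousSubmodule (Fin n) K b, Φ (q * r) = 0) → q ∈ J := by
  have hd := hJ.dims n
  rw [ciDim_self, Nat.choose_self] at hd
  obtain ⟨y, hy, hyJ⟩ : ∃ y ∈ homogeneousSubmodule (Fin n) K n, y ∉ part J n :=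
    SetLike.exists_of_lt (lt_of_le_of_ne (part_le J n) fun e => by rw [e] at hd; omega)
  obtain ⟨Φ, hΦy, hΦJ⟩ := Submodule.exists_le_ker_of_notMem hyJ
  have hΦ : ∀ a ∈ homogeneousSubmodule (Fin n) K n, Φ a = 0 → a ∈ J := by
    intro a ha h0
    have hlt : part J n < part J n ⊔ Submodule.span K {y} :=
      lt_of_le_of_ne le_sup_left fun e => hyJ (e ▸ Submodule.mem_sup_right (Submodule.mem_span_singleton_self y))
    have htop : part J n ⊔ Submodule.span K {y} = homogeneousSubmodule (Fin n) K n := by
      have hsub : part J n ⊔ Submodule.span K {y} ≤ homogeneousSubmodule (Fin n) K n :=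
        sup_le (part_le J n) ((Submodule.span_singleton_le_iff_mem _ _).2 hy)
      haveI := Submodule.finiteDimensional_of_le hsub
      refine Submodule.eq_of_le_of_finrank_le hsub ?_
      have := Submodule.finrank_lt_finrank_of_lt hlt
      omega
    rw [← htop] at ha
    obtain ⟨b, hb, z, hz, rfl⟩ := Submodule.mem_sup.1 ha
    obtain ⟨c, rfl⟩ := Submodule.mem_span_singleton.1 hz
    rw [map_add, show Φ b = 0 from hΦJ hb, zero_add, map_smul, smul_eq_mul] at h0
    rcases mul_eq_zero.1 h0 with hc | hc
    · simpa [hc] using hb.2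
    · exact absurd hc hΦy
  refine ⟨Φ, hΦJ, ?_⟩
  intro b
  induction b with
  | zero =>
    intro a ha q hq h
    obtain rfl : a = n := by omega
    exact hΦ q hq (by simpa using h 1 (isHomogeneous_one _ _))
  | succ b ih =>
    intro a ha q hq h
    refine socle_mem (hJ.exact 0 a (by omega) (Or.inr (by omega))) hq fun i => ?_
    refine ih (a + 1) (by omega) _ (by rw [add_comm]; exact mul_mem_homogeneous (isHomogeneous_X K i) hq)
      fun r hr => ?_
    have h' := h (X i * r) (by rw [add_comm]; exact mul_mem_homogeneous (isHomogeneous_X K i) hr)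
    rw [show X i * q * r = q * (X i * r) by ring]
    exact h'

lemma stage_nz {Q : GI K n} {J : Ideal (MvPolynomial (Fin n) K)} (hJ : Stage Q n J) :
    (partGI J).NZ := by
  intro p hp
  funext i
  have hd := hJ.dims (n + 1)
  rw [ciDim_self, Nat.choose_succ_self, add_zero] at hd
  have he : part J (n + 1) = homogeneousSubmodule (Fin n) K (n + 1) :=
    Submodule.eq_of_le_of_finrank_le (part_le J _) hd.ge
  have h1 : (X i ^ (n + 1) : MvPolynomial (Fin n) K) ∈ part J (n + 1) := by
    rw [he]; exact isHomogeneous_X_pow i (n + 1)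
  have hk : Ideal.span (part J 2 : Set (MvPolynomial (Fin n) K)) ≤ RingHom.ker (eval p) :=
    Ideal.span_le.2 fun q hq => hp q hq
  have := hk (hJ.le_span h1.2)
  simpa using this

/-- The linked family: its Hilbert function is the complementary one, reversed. -/
lemma exists_linked [IsAlgClosed K] (Q : GI K n) (hQ : Q.NZ) :
    ∃ L : GI K n, L.NZ ∧ (∀ d, Q.hf d ≤ n.choose d) ∧
      ∀ a ≤ n, L.hf a + Q.hf (n - a) = n.choose a := by
  obtain ⟨J, hJ⟩ := exists_stage Q hQ n le_rfl
  obtain ⟨Φ, hΦJ, hnd⟩ := exists_socle_functional hJ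
  have hker : ∀ a b, a + b = n → ∀ v ∈ part J a, ∀ r ∈ homogeneousSubmodule (Fin n) K b,
      Φ (v * r) = 0 := fun a b hab v hv r hr =>
    LinearMap.mem_ker.1 (hΦJ (Submodule.mem_inf.2
      ⟨by have := mul_mem_homogeneous hv.1 hr; rw [hab] at this; exact this,
        J.mul_mem_right r hv.2⟩))
  refine ⟨dualGI Q Φ n, (partGI J).nz_mono (stage_nz hJ) ?_, fun d => ?_, fun a ha => ?_⟩
  · intro x hx
    simp only [dualGI]
    split
    · next h =>
      exact ⟨⟨x, hx.1⟩, LinearMap.ext fun r => hker 2 (n - 2) (by omega) x hx r (Q.le _ r.2), rfl⟩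
    · exact hx.1
  · have h1 := hJ.dims d
    rw [ciDim_self] at h1
    have := Q.hf_add d
    have := Submodule.finrank_mono (hJ.le_piece d)
    omega
  set L := dualGI Q Φ n
  set W := Q.piece (n - a)
  set B := pair Φ a W
  have e1 := B.finrank_range_add_finrank_ker
  have e2 : L.piece a = (LinearMap.ker B).map (homogeneousSubmodule (Fin n) K a).subtype := by
    show (if a ≤ n then _ else _) = _
    rw [if_pos ha]
  have e3 : finrank K (L.piece a) = finrank K (LinearMap.ker B) := by
    rw [e2]
    exact (Submodule.equivMapOfInjective _ (Submodule.injective_subtype _) _).finrank_eq.symm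
  have e4 := L.hf_add a
  set JW := (part J (n - a)).comap W.subtype
  have e5 : finrank K JW = finrank K (part J (n - a)) :=
    (Submodule.comapSubtypeEquivOfLe (hJ.le_piece _)).finrank_eq
  have e6 : LinearMap.range B ≤ JW.dualAnnihilator := by
    rintro _ ⟨x, rfl⟩
    rw [Submodule.mem_dualAnnihilator]
    intro w hw
    show Φ (x.1 * w.1) = 0
    rw [mul_comm]
    exact hker (n - a) a (by omega) _ hw _ x.2
  have e7 : (LinearMap.range B).dualCoannihilator ≤ JW := by
    intro w hw
    refine ⟨Q.le _ w.2, hnd a (n - a) (by omega) _ (Q.le _ w.2) fun r hr => ?_⟩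
    have := (Submodule.mem_dualCoannihilator _).1 hw (B ⟨r, hr⟩) ⟨_, rfl⟩
    show Φ (w.1 * r) = 0
    rw [mul_comm]
    exact this
  have e8 := Subspace.finrank_add_finrank_dualCoannihilator_eq (LinearMap.range B)
  have e9 := Subspace.finrank_add_finrank_dualAnnihilator_eq JW
  have e10 := Submodule.finrank_mono e6
  have e11 := Submodule.finrank_mono e7
  have e12 : finrank K (part J (n - a)) + n.choose (n - a) =
      finrank K (homogeneousSubmodule (Fin n) K (n - a)) := by
    have := hJ.dims (n - a)
    rwa [ciDim_self] at this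
  rw [Nat.choose_symm ha] at e12
  have e13 := Q.hf_add (n - a)
  have eW : finrank K W = finrank K (Q.piece (n - a)) := rfl
  omega

/-- A graded complex with face numbers `h`. -/
def HasComplex (n : ℕ) (h : ℕ → ℕ) : Prop :=
  ∃ F : ℕ → Finset (Finset (Fin n)),
    (∀ d, ((F d : Finset (Finset (Fin n))) : Set (Finset (Fin n))).Sized d) ∧
      (∀ d, (F d).card = h d) ∧ ∀ d, Finset.shadow (F (d + 1)) ⊆ F d

/-- The Alexander dual complex has the complementary face numbers, reversed. -/
lemma HasComplex.dual {n : ℕ} {g h : ℕ → ℕ} (hg : HasComplex n g)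
    (hle : ∀ d, n < d → h d = 0) (hgh : ∀ a ≤ n, g a + h (n - a) = n.choose a) :
    HasComplex n h := by
  classical
  obtain ⟨F, h1, h2, h3⟩ := hg
  refine ⟨fun d => (Finset.powersetCard d Finset.univ).filter fun T => Tᶜ ∉ F (n - d),
    fun d T hT => (Finset.mem_powersetCard.1 (Finset.mem_filter.1 hT).1).2, fun d => ?_, fun d T hT => ?_⟩
  · beta_reduce
    rcases Nat.lt_or_ge n d with hd | hd
    · rw [hle d hd, Finset.powersetCard_eq_empty.2 (by simpa using hd)]
      simp
    · have hc : ((Finset.powersetCard d Finset.univ).filter fun T : Finset (Fin n) => Tᶜ ∈ F (n - d)).card =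
          (F (n - d)).card := by
        refine Finset.card_bij' (fun T _ => Tᶜ) (fun T _ => Tᶜ) ?_ ?_ ?_ ?_
        · exact fun T hT => (Finset.mem_filter.1 hT).2
        · intro T hT
          have hTc : T.card = n - d := h1 _ hT
          refine Finset.mem_filter.2 ⟨Finset.mem_powersetCard.2 ⟨Finset.subset_univ _, ?_⟩, ?_⟩
          · rw [Finset.card_compl, hTc, Fintype.card_fin]; omega
          · rwa [compl_compl]
        · exact fun T _ => compl_compl T
        · exact fun T _ => compl_compl T
      have htot := Finset.card_filter_add_card_filter_not (s := Finset.powersetCard d Finset.univ)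
        (fun T : Finset (Fin n) => Tᶜ ∈ F (n - d))
      rw [hc, h2, Finset.card_powersetCard, Finset.card_univ, Fintype.card_fin] at htot
      have := hgh (n - d) (by omega)
      rw [Nat.sub_sub_self hd, Nat.choose_symm hd] at this
      omega
  · obtain ⟨a, ha, hTa⟩ := Finset.mem_shadow_iff_insert_mem.1 hT
    obtain ⟨hc, hn⟩ := Finset.mem_filter.1 hTa
    have hcard := (Finset.mem_powersetCard.1 hc).2
    rw [Finset.card_insert_of_notMem ha] at hcard
    refine Finset.mem_filter.2 ⟨Finset.mem_powersetCard.2 ⟨Finset.subset_univ _, by omega⟩, fun hmem => hn ?_⟩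
    have hdn : d + 1 ≤ n := by
      have := Finset.card_le_univ (insert a T)
      rw [Finset.card_insert_of_notMem ha, Fintype.card_fin] at this
      omega
    rw [show n - d = n - (d + 1) + 1 by omega] at hmem
    have := h3 _ (Finset.erase_mem_shadow hmem (Finset.mem_compl.2 ha))
    rwa [Finset.compl_insert]

/-- Monomial models exist when the quotient is small in degree two or nearly full in
degree `n - 2`. -/
theorem GI.hasComplex (Q : GI K n) {f : Fin n → MvPolynomial (Fin n) K}
    (hf : ∀ i, f i ∈ Q.piece 2)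
    (hreg : RingTheory.Sequence.IsWeaklyRegular (MvPolynomial (Fin n) K) (List.ofFn f))
    (h : Q.hf 2 ≤ 10 ∨ n.choose 2 ≤ Q.hf (n - 2) + 10) : HasComplex n Q.hf := by
  rcases h with h | h
  · exact exists_complex Q (Q.growth_of_regular hf hreg h)
  · set L := AlgebraicClosure K
    set QL := Q.baseChange L
    have hNZ : QL.NZ := by
      intro p hp
      funext i
      obtain ⟨N, hN⟩ := X_mem_radical_of_regular (fun j => Q.le 2 (hf j)) hreg i
      have hker : Ideal.span (Set.range f) ≤ RingHom.ker (eval₂Hom (algebraMap K L) p) := by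
        refine Ideal.span_le.2 ?_
        rintro _ ⟨j, rfl⟩
        have := hp _ (Submodule.subset_span ⟨f j, hf j, rfl⟩)
        rw [eval_map] at this
        exact this
      have := hker hN
      rw [RingHom.mem_ker, map_pow, coe_eval₂Hom, eval₂_X] at this
      exact eq_zero_of_pow_eq_zero this
    obtain ⟨P, hP, hle, hsum⟩ := exists_linked QL hNZ
    have hh : QL.hf = Q.hf := funext fun d => Q.hf_baseChange L d
    rw [hh] at hle hsum
    rcases Nat.lt_or_ge n 2 with hn | hn
    · refine exists_complex Q (Q.growth_of_regular hf hreg ((hle 2).trans ?_))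
      rw [Nat.choose_eq_zero_of_lt hn]
      norm_num
    have h2 := hsum 2 hn
    have hG : P.Growth := GI.growth _ n P hP rfl (by omega)
    exact HasComplex.dual (exists_complex P hG)
      (fun d hd => by have := hle d; rw [Nat.choose_eq_zero_of_lt hd] at this; omega) hsum

end Vale.Agent.P200.SmallH2
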