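import Vale.Agent.P200.SmallH2.Stage
import Vale.Agent.P200.SmallH2.Combi
import Mathlib.LinearAlgebra.Dual.Lemmas

/-!
Five variables: the growth bound, from duality in a complete intersection of five quadrics.
-/

namespace Vale.Agent.P200.SmallH2

open MvPolynomial Module

variable {K : Type*} [Field K] {n : ℕ}

local instance finiteHom3 (d : ℕ) : Module.Finite K (homogeneousSubmodule (Fin n) K d) :=
  Module.Finite.iff_fg.2 (homogeneousSubmodule_fg (Fin n) K d)

/-- The Kruskal-Katona growth condition. -/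
def GI.Growth (Q : GI K n) : Prop := ∀ d, 1 ≤ d → Feas d (Q.hf d) (Q.hf (d + 1))

lemma Feas.eq_zero {d m t : ℕ} (h : Feas d m t) (hm : m ≤ d) : t = 0 := by
  obtain ⟨N, A, h1, h2, h3⟩ := h
  by_contra ht
  obtain ⟨s, hs⟩ := Finset.card_pos.1 (by omega : 0 < A.card)
  have h : (s.image fun a => s.erase a) ⊆ Finset.shadow A := fun u hu => by
    obtain ⟨a, ha, rfl⟩ := Finset.mem_image.1 hu
    exact Finset.erase_mem_shadow hs ha
  have h' := Finset.card_le_card h
  rw [Finset.card_image_of_injOn (Finset.erase_injOn s), h1 hs] at h'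
  omega

variable {Φ : MvPolynomial (Fin n) K →ₗ[K] K}

/-- The pairing of degree `a` against a subspace. -/
noncomputable def pair (Φ : MvPolynomial (Fin n) K →ₗ[K] K) (a : ℕ)
    (W : Submodule K (MvPolynomial (Fin n) K)) :
    homogeneousSubmodule (Fin n) K a →ₗ[K] Module.Dual K W :=
  LinearMap.mk₂ K (fun x w => Φ (x.1 * w.1)) (fun x y w => by simp [add_mul])
    (fun c x w => by simp) (fun x w v => by simp [mul_add]) (fun c x w => by simp)

/-- The pieces orthogonal to `Q`. -/
noncomputable def dualGI (Q : GI K n) (Φ : MvPolynomial (Fin n) K →ₗ[K] K) (s : ℕ) : GI K n where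
  piece a := if a ≤ s then (LinearMap.ker (pair Φ a (Q.piece (s - a)))).map
    (homogeneousSubmodule (Fin n) K a).subtype else homogeneousSubmodule (Fin n) K a
  le a := by
    split
    · exact Submodule.map_subtype_le _ _
    · exact le_rfl
  mul_mem := by
    intro a v x hv hx
    have hvx : v * x ∈ homogeneousSubmodule (Fin n) K (a + 1) := by
      rw [add_comm]
      refine mul_mem_homogeneous hv ?_
      split at hx
      · exact Submodule.map_subtype_le _ _ hx
      · exact hx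
    split
    · next h =>
      rw [if_pos (by omega)] at hx
      obtain ⟨y, hy, rfl⟩ := hx
      refine ⟨⟨_, hvx⟩, LinearMap.ext fun r => ?_, rfl⟩
      have hr := Q.mul_mem hv r.2
      rw [show s - (a + 1) + 1 = s - a by omega] at hr
      have := LinearMap.congr_fun (LinearMap.mem_ker.1 hy) ⟨_, hr⟩
      simpa [pair, mul_assoc, mul_comm, mul_left_comm] using this
    · exact hvx


lemma ciDim_five : ciDim 5 5 1 = 5 ∧ ciDim 5 5 2 = 10 ∧ ciDim 5 5 3 = 10 ∧ ciDim 5 5 4 = 5 ∧
    ciDim 5 5 5 = 1 ∧ ciDim 5 5 6 = 0 := by decide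

lemma Stage.hf_le {Q : GI K 5} {J : Ideal (MvPolynomial (Fin 5) K)} (hJ : Stage Q 5 J) (d : ℕ) :
    Q.hf d ≤ ciDim 5 5 d := by
  have := Q.hf_add d
  have := hJ.dims d
  have := Submodule.finrank_mono (hJ.le_piece d)
  omega

/-- A socle functional with the duality it induces. -/
structure Socle (J : Ideal (MvPolynomial (Fin 5) K)) (Φ : MvPolynomial (Fin 5) K →ₗ[K] K) : Prop where
  zero : part J 5 ≤ LinearMap.ker Φ
  nondeg : ∀ b a, a + b = 5 → ∀ q ∈ homogeneousSubmodule (Fin 5) K a,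
    (∀ r ∈ homogeneousSubmodule (Fin 5) K b, Φ (q * r) = 0) → q ∈ J

lemma Socle.ker {J : Ideal (MvPolynomial (Fin 5) K)} {Φ : MvPolynomial (Fin 5) K →ₗ[K] K}
    (hΦ : Socle J Φ) (a b : ℕ) (hab : a + b = 5) : ∀ v ∈ part J a,
    ∀ r ∈ homogeneousSubmodule (Fin 5) K b, Φ (v * r) = 0 := fun _ hv r hr =>
  LinearMap.mem_ker.1 (hΦ.zero (Submodule.mem_inf.2 ⟨by have := mul_mem_homogeneous hv.1 hr; rwa [hab] at this,
    J.mul_mem_right r hv.2⟩))

lemma Stage.exists_socle {Q : GI K 5} {J : Ideal (MvPolynomial (Fin 5) K)} (hJ : Stage Q 5 J) :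
    ∃ Φ, Socle J Φ := by
  obtain ⟨c1, c2, c3, c4, c5, c6⟩ := ciDim_five
  have hd : ∀ d, finrank K (part J d) + ciDim 5 5 d = finrank K (homogeneousSubmodule (Fin 5) K d) :=
    hJ.dims
  obtain ⟨y, hy, hyJ⟩ : ∃ y ∈ homogeneousSubmodule (Fin 5) K 5, y ∉ part J 5 :=
    SetLike.exists_of_lt (lt_of_le_of_ne (part_le J 5) fun e => by
      have := hd 5; rw [e] at this; omega)
  obtain ⟨Φ, hΦy, hΦJ⟩ := Submodule.exists_le_ker_of_notMem hyJ
  have hΦ : ∀ a ∈ homogeneousSubmodule (Fin 5) K 5, Φ a = 0 → a ∈ J := by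
    intro a ha h0
    have hlt : part J 5 < part J 5 ⊔ Submodule.span K {y} :=
      lt_of_le_of_ne le_sup_left fun e => hyJ (e ▸ Submodule.mem_sup_right (Submodule.mem_span_singleton_self y))
    have htop : part J 5 ⊔ Submodule.span K {y} = homogeneousSubmodule (Fin 5) K 5 := by
      have hsub : part J 5 ⊔ Submodule.span K {y} ≤ homogeneousSubmodule (Fin 5) K 5 :=
        sup_le (part_le J 5) ((Submodule.span_singleton_le_iff_mem _ _).2 hy)
      haveI := Submodule.finiteDimensional_of_le hsub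
      refine Submodule.eq_of_le_of_finrank_le hsub ?_
      have := Submodule.finrank_lt_finrank_of_lt hlt
      have := hd 5
      omega
    rw [← htop] at ha
    obtain ⟨b, hb, z, hz, rfl⟩ := Submodule.mem_sup.1 ha
    obtain ⟨c, rfl⟩ := Submodule.mem_span_singleton.1 hz
    rw [map_add, show Φ b = 0 from hΦJ hb, zero_add, map_smul, smul_eq_mul] at h0
    rcases mul_eq_zero.1 h0 with hc | hc
    · simpa [hc] using hb.2
    · exact absurd hc hΦy
  have hnd : ∀ b a, a + b = 5 → ∀ q ∈ homogeneousSubmodule (Fin 5) K a,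
      (∀ r ∈ homogeneousSubmodule (Fin 5) K b, Φ (q * r) = 0) → q ∈ J := by
    intro b
    induction b with
    | zero =>
      intro a ha q hq h
      obtain rfl : a = 5 := by omega
      exact hΦ q hq (by simpa using h 1 (isHomogeneous_one _ _))
    | succ b ih =>
      intro a ha q hq h
      refine socle_mem (hJ.exact 0 a (by norm_num) (Or.inr (by omega))) hq fun i => ?_
      refine ih (a + 1) (by omega) _ (by rw [add_comm]; exact mul_mem_homogeneous (isHomogeneous_X K i) hq)
        fun r hr => ?_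
      have h' := h (X i * r) (by rw [add_comm]; exact mul_mem_homogeneous (isHomogeneous_X K i) hr)
      rw [show X i * q * r = q * (X i * r) by ring]
      exact h'
  exact ⟨Φ, hΦJ, hnd⟩

lemma Stage.nz {Q : GI K 5} {J : Ideal (MvPolynomial (Fin 5) K)} (hJ : Stage Q 5 J) :
    (partGI J).NZ := by
  have hd := hJ.dims
  have c6 := ciDim_five.2.2.2.2.2
  intro p hp
  funext i
  have h6 : (X i ^ 6 : MvPolynomial (Fin 5) K) ∈ Ideal.span (part J 2 : Set (MvPolynomial (Fin 5) K)) := by
    refine hJ.le_span ?_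
    have he : part J 6 = homogeneousSubmodule (Fin 5) K 6 :=
      Submodule.eq_of_le_of_finrank_le (part_le J 6) (by have := hd 6; omega)
    have : (X i ^ 6 : MvPolynomial (Fin 5) K) ∈ part J 6 := by
      rw [he]; exact isHomogeneous_X_pow i 6
    exact this.2
  have hk : Ideal.span (part J 2 : Set (MvPolynomial (Fin 5) K)) ≤ RingHom.ker (eval p) :=
    Ideal.span_le.2 fun q hq => hp q hq
  have := hk h6
  simpa using this

lemma Stage.rank {Q : GI K 5} {J : Ideal (MvPolynomial (Fin 5) K)} (hJ : Stage Q 5 J)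
    {Φ : MvPolynomial (Fin 5) K →ₗ[K] K} (hΦ : Socle J Φ) (a : ℕ) (ha : a ≤ 5) :
    (dualGI Q Φ 5).hf a + finrank K (part J (5 - a)) = finrank K (Q.piece (5 - a)) := by
  set L := dualGI Q Φ 5
  have hker := hΦ.ker
  have hnd := hΦ.nondeg
  set W := Q.piece (5 - a)
  set B := pair Φ a W
  have e1 := B.finrank_range_add_finrank_ker
  have e2 : L.piece a = (LinearMap.ker B).map (homogeneousSubmodule (Fin 5) K a).subtype := by
    show (if a ≤ 5 then _ else _) = _
    rw [if_pos ha]
  have e3 : finrank K (L.piece a) = finrank K (LinearMap.ker B) := by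
    rw [e2]
    exact (Submodule.equivMapOfInjective _ (Submodule.injective_subtype _) _).finrank_eq.symm
  have e4 := L.hf_add a
  set JW := (part J (5 - a)).comap W.subtype
  have e5 : finrank K JW = finrank K (part J (5 - a)) :=
    (Submodule.comapSubtypeEquivOfLe (hJ.le_piece _)).finrank_eq
  have e6 : LinearMap.range B ≤ JW.dualAnnihilator := by
    rintro _ ⟨x, rfl⟩
    rw [Submodule.mem_dualAnnihilator]
    intro w hw
    show Φ (x.1 * w.1) = 0
    rw [mul_comm]
    exact hker (5 - a) a (by omega) _ hw _ x.2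
  have e7 : (LinearMap.range B).dualCoannihilator ≤ JW := by
    intro w hw
    refine ⟨Q.le _ w.2, hnd a (5 - a) (by omega) _ (Q.le _ w.2) fun r hr => ?_⟩
    have := (Submodule.mem_dualCoannihilator _).1 hw (B ⟨r, hr⟩) ⟨_, rfl⟩
    show Φ (w.1 * r) = 0
    rw [mul_comm]
    exact this
  have e8 := Subspace.finrank_add_finrank_dualCoannihilator_eq (LinearMap.range B)
  have e9 := Subspace.finrank_add_finrank_dualAnnihilator_eq JW
  have e10 := Submodule.finrank_mono e6
  have e11 := Submodule.finrank_mono e7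
  omega

lemma Stage.two {Q : GI K 5} [IsAlgClosed K] {J : Ideal (MvPolynomial (Fin 5) K)} (hJ : Stage Q 5 J)
    {Φ : MvPolynomial (Fin 5) K →ₗ[K] K} (hΦ : Socle J Φ) (h9 : 9 ≤ Q.hf 2)
    (IH : ∀ Q' : GI K 5, Q'.NZ → Q'.hf 1 < 5 → Q'.hf 2 ≤ 10 → Q'.Growth) :
    Feas 2 (Q.hf 2) (Q.hf 3) := by
  classical
  obtain ⟨c1, c2, c3, c4, c5, c6⟩ := ciDim_five
  have hd := hJ.dims
  have hker := hΦ.ker
  have hnd := hΦ.nondeg
  set A := partGI J
  have hANZ : A.NZ := hJ.nz
  have h3 := hJ.hf_le 3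
  rcases Nat.lt_or_ge (Q.hf 2) 10 with hm | hm
  swap
  · exact feas_two_ten.mono hm (by omega)
  refine feas_two_nine.mono h9 ?_
  obtain ⟨q, hq, hqJ⟩ : ∃ q ∈ Q.piece 2, q ∉ part J 2 :=
    SetLike.exists_of_lt (lt_of_le_of_ne (hJ.le_piece 2) fun e => by
      have := hd 2
      have := Q.hf_add 2
      rw [← e] at this
      omega)
  set M := LinearMap.mulLeft K q
  set Lq := homogeneousSubmodule (Fin 5) K 1 ⊓ (J.restrictScalars K).comap M
  have hLqle : Lq ≤ homogeneousSubmodule (Fin 5) K 1 := inf_le_left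
  haveI : FiniteDimensional K Lq := Submodule.finiteDimensional_of_le hLqle
  have hq0 : q ≠ 0 := fun h => hqJ (h ▸ Submodule.zero_mem _)
  have hinj : Function.Injective M := fun x y h => mul_left_cancel₀ hq0 h
  have hsub : part J 3 ⊔ (homogeneousSubmodule (Fin 5) K 1).map M ≤ Q.piece 3 := by
    refine sup_le (hJ.le_piece 3) ?_
    rintro _ ⟨u, hu, rfl⟩
    simpa [M, mul_comm] using Q.mul_mem hu hq
  have hinf : part J 3 ⊓ (homogeneousSubmodule (Fin 5) K 1).map M = Lq.map M := by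
    ext a
    constructor
    · rintro ⟨ha, u, hu, rfl⟩
      exact ⟨u, ⟨hu, ha.2⟩, rfl⟩
    · rintro ⟨u, hu, rfl⟩
      exact ⟨⟨mul_mem_homogeneous (Q.le 2 hq) hu.1, hu.2⟩, u, hu.1, rfl⟩
  have f1 := (Submodule.equivMapOfInjective M hinj (homogeneousSubmodule (Fin 5) K 1)).finrank_eq
  have f2 := (Submodule.equivMapOfInjective M hinj Lq).finrank_eq
  have f3 := Submodule.finrank_sup_add_finrank_inf_eq (part J 3)
    ((homogeneousSubmodule (Fin 5) K 1).map M)
  rw [hinf, ← f1, ← f2, finrank_homogeneous_one] at f3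
  have f4 := Submodule.finrank_mono hsub
  have f5 := Q.hf_add 3
  have f6 := hd 3
  suffices finrank K Lq ≤ 2 by omega
  by_contra hbig
  -- three independent annihilating linear forms would put `q` in the socle
  let G : GI K 5 :=
    { piece := fun e => match e with
        | 0 => part J 0
        | e + 1 => part J (e + 1) ⊔ Lq * homogeneousSubmodule (Fin 5) K e
      le := fun e => match e with
        | 0 => part_le J 0
        | e + 1 => sup_le (part_le J _) (Submodule.mul_le.2 fun u hu w hw => by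
            rw [add_comm]; exact mul_mem_homogeneous (hLqle hu) hw)
      mul_mem := fun {e v x} hv hx => by
        cases e with
        | zero => exact Submodule.mem_sup_left ((partGI J).mul_mem hv hx)
        | succ e =>
          obtain ⟨b, hb, c, hc, rfl⟩ := Submodule.mem_sup.1 hx
          rw [mul_add]
          refine Submodule.add_mem_sup ((partGI J).mul_mem hv hb) ?_
          refine Submodule.mul_induction_on hc (fun u hu w hw => ?_) fun a b ha hb => ?_
          · rw [mul_left_comm]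
            refine Submodule.mul_mem_mul hu ?_
            rw [add_comm]
            exact mul_mem_homogeneous hv hw
          · rw [mul_add]; exact Submodule.add_mem _ ha hb }
  have hGnz : G.NZ := A.nz_mono hANZ (le_sup_left : part J 2 ≤ _)
  have hG1le : Lq ≤ G.piece 1 := fun u hu => Submodule.mem_sup_right (by
    simpa using Submodule.mul_mem_mul hu (show (1 : MvPolynomial (Fin 5) K) ∈
      homogeneousSubmodule (Fin 5) K 0 from isHomogeneous_one (Fin 5) K))
  have g1 : G.hf 1 ≤ 2 := by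
    haveI : Module.Finite K (G.piece 1) := Submodule.finiteDimensional_of_le (G.le 1)
    have := Submodule.finrank_mono hG1le
    have := G.hf_add 1
    rw [finrank_homogeneous_one] at this
    omega
  have g2 : G.hf 2 ≤ 1 := (G.hf_two_le hGnz).trans (by
    have : (G.hf 1).choose 2 ≤ (2 : ℕ).choose 2 := Nat.choose_le_choose 2 g1
    simpa using this)
  have g3 : G.hf 3 = 0 := (IH G hGnz (by omega) (by omega) 2 (by norm_num)).eq_zero (by omega)
  rw [GI.hf_eq_zero_iff] at g3
  refine hqJ ⟨Q.le 2 hq, hnd 3 2 rfl q (Q.le 2 hq) fun r hr => ?_⟩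
  obtain ⟨b, hb, c, hc, rfl⟩ := Submodule.mem_sup.1 (g3 hr)
  rw [mul_add, map_add, mul_comm q b, hker 3 2 rfl b hb q (Q.le 2 hq), zero_add]
  refine Submodule.mul_induction_on hc (fun u hu w hw => ?_) fun a b ha hb => ?_
  · rw [← mul_assoc]
    exact hker 3 2 rfl (q * u) ⟨mul_mem_homogeneous (Q.le 2 hq) hu.1, hu.2⟩ w hw
  · rw [mul_add, map_add, ha, hb, add_zero]

lemma Stage.three {Q : GI K 5} [IsAlgClosed K] {J : Ideal (MvPolynomial (Fin 5) K)} (hJ : Stage Q 5 J)
    {Φ : MvPolynomial (Fin 5) K →ₗ[K] K} (hΦ : Socle J Φ) : Feas 3 (Q.hf 3) (Q.hf 4) := by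
  obtain ⟨c1, c2, c3, c4, c5, c6⟩ := ciDim_five
  have hd := hJ.dims
  set L := dualGI Q Φ 5
  have hrank := hJ.rank hΦ
  have hle := hJ.hf_le
  have hLJ : part J 2 ≤ L.piece 2 := by
    intro a ha
    simp only [L, dualGI]
    rw [if_pos (by norm_num)]
    exact ⟨⟨a, ha.1⟩, LinearMap.ext fun r => hΦ.ker 2 3 rfl a ha r (Q.le 3 r.2), rfl⟩
  have hLNZ : L.NZ := (partGI J).nz_mono hJ.nz hLJ
  have k1 : L.hf 1 + finrank K (part J (5 - 1)) = finrank K (Q.piece (5 - 1)) := hrank 1 (by norm_num)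
  have k2 : L.hf 2 + finrank K (part J (5 - 2)) = finrank K (Q.piece (5 - 2)) := hrank 2 (by norm_num)
  rw [show 5 - 1 = 4 from rfl] at k1
  rw [show 5 - 2 = 3 from rfl] at k2
  have k3 := L.hf_two_le hLNZ
  have a3 := Q.hf_add 3
  have a4 := Q.hf_add 4
  have d3 := hd 3
  have d4 := hd 4
  have h4 := hle 4
  refine feas_three (by omega) ?_
  show 10 ≤ Q.hf 3 + (5 - Q.hf 4).choose 2
  have k4 : (L.hf 1).choose 2 ≤ (5 - Q.hf 4).choose 2 := Nat.choose_le_choose 2 (by omega)
  omega

lemma Stage.four {Q : GI K 5} {J : Ideal (MvPolynomial (Fin 5) K)} (hJ : Stage Q 5 J)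
    {Φ : MvPolynomial (Fin 5) K →ₗ[K] K} (hΦ : Socle J Φ) : Feas 4 (Q.hf 4) (Q.hf 5) := by
  obtain ⟨c1, c2, c3, c4, c5, c6⟩ := ciDim_five
  have hd := hJ.dims
  have hle := hJ.hf_le
  have hnd := hΦ.nondeg
  have hΦJ := hΦ.zero
  refine feas_four (by have := hle 5; omega) fun h1 => ?_
  change Q.hf 5 = 1 at h1
  have hQ5 : Q.piece 5 ≤ part J 5 := (Submodule.eq_of_le_of_finrank_le (hJ.le_piece 5) (by
    have := Q.hf_add 5; have := hd 5; omega)).ge
  have hQ4 : Q.piece 4 ≤ part J 4 := fun q hq => ⟨Q.le 4 hq, hnd 1 4 rfl q (Q.le 4 hq) fun r hr => by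
    rw [mul_comm]
    exact hΦJ (hQ5 (Q.mul_mem hr hq))⟩
  have := Submodule.finrank_mono hQ4
  have := Q.hf_add 4
  have := hd 4
  omega


lemma GI.five_aux [IsAlgClosed K] (Q : GI K 5) (hQ : Q.NZ) (h9 : 9 ≤ Q.hf 2)
    (IH : ∀ Q' : GI K 5, Q'.NZ → Q'.hf 1 < 5 → Q'.hf 2 ≤ 10 → Q'.Growth) :
    ∀ d, 2 ≤ d → Feas d (Q.hf d) (Q.hf (d + 1)) := by
  obtain ⟨J, hJ⟩ := exists_stage Q hQ 5 le_rfl
  obtain ⟨Φ, hΦ⟩ := hJ.exists_socle
  intro d hd2
  rcases Nat.lt_or_ge d 5 with h5 | h5
  swap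
  · rw [Q.hf_eq_zero_of_le (d := 6) (e := d + 1)
      (by have := hJ.hf_le 6; have := ciDim_five.2.2.2.2.2; omega) (by omega)]
    exact feas_zero _ _
  interval_cases d
  · exact hJ.two hΦ h9 IH
  · exact hJ.three hΦ
  · exact hJ.four hΦ

end Vale.Agent.P200.SmallH2
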