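import Vale.Agent.P200.Quadrics
import Mathlib.RingTheory.Nullstellensatz
import Mathlib.Data.Finsupp.Multiset
import Mathlib.LinearAlgebra.Basis.VectorSpace

/-!
Graded families of subspaces closed under multiplication, their Hilbert function and
reduction of the number of variables.
-/

namespace Vale.Agent.P200.SmallH2

open MvPolynomial Module

variable {K : Type*} [Field K] {n : ℕ}

local instance finiteHom (d : ℕ) : Module.Finite K (homogeneousSubmodule (Fin n) K d) :=
  Module.Finite.iff_fg.2 (homogeneousSubmodule_fg (Fin n) K d)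

/-- The degree pieces of a homogeneous ideal. -/
structure GI (K : Type*) [Field K] (n : ℕ) where
  piece : ℕ → Submodule K (MvPolynomial (Fin n) K)
  le : ∀ d, piece d ≤ homogeneousSubmodule (Fin n) K d
  mul_mem : ∀ {d : ℕ} {v x : MvPolynomial (Fin n) K},
    v ∈ homogeneousSubmodule (Fin n) K 1 → x ∈ piece d → v * x ∈ piece (d + 1)

lemma homogeneous_succ (d : ℕ) : homogeneousSubmodule (Fin n) K (d + 1) =
    homogeneousSubmodule (Fin n) K 1 * homogeneousSubmodule (Fin n) K d := by
  rw [← homogeneousSubmodule_one_pow (σ := Fin n) (R := K) (n := d + 1), pow_succ',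
    homogeneousSubmodule_one_pow]

lemma finrank_homogeneous (d : ℕ) :
    finrank K (homogeneousSubmodule (Fin n) K d) = (n + d - 1).choose d := by
  classical
  have e : Sym (Fin n) d ≃ {s : Fin n →₀ ℕ | s.degree = d} :=
    Sym.equivNatSum (Fin n) d
  letI : Fintype {s : Fin n →₀ ℕ | s.degree = d} := Fintype.ofEquiv _ e
  have h1 := (finrank_eq_card_basis (basisRestrictSupport K {s : Fin n →₀ ℕ | s.degree = d})).trans
    (Fintype.card_congr e.symm)
  rw [Sym.card_sym_eq_choose, Fintype.card_fin] at h1
  rw [← h1, homogeneousSubmodule_eq_finsupp_supported]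
  rfl

/-- Nullstellensatz form of the hypothesis: the quadrics have no common nonzero zero. -/
def GI.NZ (Q : GI K n) : Prop := ∀ p : Fin n → K, (∀ q ∈ Q.piece 2, eval p q = 0) → p = 0

/-- The Hilbert function of the quotient. -/
noncomputable def GI.hf (Q : GI K n) (d : ℕ) : ℕ :=
  finrank K (homogeneousSubmodule (Fin n) K d) - finrank K (Q.piece d)

namespace GI

variable (Q : GI K n)

instance (d : ℕ) : Module.Finite K (Q.piece d) := Submodule.finiteDimensional_of_le (Q.le d)

lemma finrank_le (d : ℕ) :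
    finrank K (Q.piece d) ≤ finrank K (homogeneousSubmodule (Fin n) K d) :=
  Submodule.finrank_mono (Q.le d)

lemma hf_add (d : ℕ) :
    Q.hf d + finrank K (Q.piece d) = finrank K (homogeneousSubmodule (Fin n) K d) :=
  Nat.sub_add_cancel (Q.finrank_le d)

lemma hom_mul_mem {d : ℕ} : ∀ {k : ℕ} {s x : MvPolynomial (Fin n) K},
    s ∈ homogeneousSubmodule (Fin n) K k → x ∈ Q.piece d → s * x ∈ Q.piece (d + k) := by
  intro k
  induction k with
  | zero =>
    intro s x hs hx
    rw [homogeneousSubmodule_zero, Submodule.mem_one] at hs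
    obtain ⟨c, rfl⟩ := hs
    rw [← Algebra.smul_def]
    exact Submodule.smul_mem _ _ hx
  | succ k ih =>
    intro s x hs hx
    rw [homogeneous_succ] at hs
    refine Submodule.mul_induction_on hs (fun v hv u hu => ?_) fun u v hu hv => ?_
    · rw [mul_assoc, ← add_assoc]
      exact Q.mul_mem hv (ih hu hx)
    · rw [add_mul]
      exact Submodule.add_mem _ hu hv

lemma hf_mono {Q' : GI K n} {d : ℕ} (h : Q.piece d ≤ Q'.piece d) : Q'.hf d ≤ Q.hf d :=
  Nat.sub_le_sub_left (Submodule.finrank_mono h) _

lemma hf_eq_zero_iff {d : ℕ} :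
    Q.hf d = 0 ↔ homogeneousSubmodule (Fin n) K d ≤ Q.piece d := by
  constructor
  · intro h
    exact (Submodule.eq_of_le_of_finrank_le (Q.le d) (by have := Q.hf_add d; omega)).ge
  · intro h
    rw [GI.hf, le_antisymm (Q.le d) h, Nat.sub_self]

lemma hf_eq_zero_succ {d : ℕ} (h : Q.hf d = 0) : Q.hf (d + 1) = 0 := by
  rw [hf_eq_zero_iff] at h ⊢
  rw [homogeneous_succ]
  exact Submodule.mul_le.2 fun v hv x hx => Q.mul_mem hv (h hx)

lemma hf_eq_zero_of_le {d e : ℕ} (h : Q.hf d = 0) (hde : d ≤ e) : Q.hf e = 0 := by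
  induction e, hde using Nat.le_induction with
  | base => exact h
  | succ e _ ih => exact Q.hf_eq_zero_succ ih

/-- Adding the multiples of a linear form. -/
noncomputable def addForm (a : MvPolynomial (Fin n) K) (ha : a ∈ homogeneousSubmodule (Fin n) K 1) : GI K n where
  piece
    | 0 => Q.piece 0
    | d + 1 => Q.piece (d + 1) ⊔ (homogeneousSubmodule (Fin n) K d).map (LinearMap.mulLeft K a)
  le
    | 0 => Q.le 0
    | d + 1 => sup_le (Q.le _) (by
        rintro _ ⟨x, hx, rfl⟩
        rw [add_comm]
        exact mul_mem_homogeneous ha hx)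
  mul_mem := by
    intro d v x hv hx
    cases d with
    | zero => exact Submodule.mem_sup_left (Q.mul_mem hv hx)
    | succ d =>
      obtain ⟨y, hy, _, ⟨w, hw, rfl⟩, rfl⟩ := Submodule.mem_sup.1 hx
      rw [mul_add]
      refine Submodule.add_mem_sup (Q.mul_mem hv hy) ⟨v * w, ?_, by simp [mul_left_comm]⟩
      rw [add_comm]
      exact mul_mem_homogeneous hv hw

/-- The colon by a linear form. -/
noncomputable def colon (a : MvPolynomial (Fin n) K) : GI K n where
  piece d := homogeneousSubmodule (Fin n) K d ⊓ (Q.piece (d + 1)).comap (LinearMap.mulLeft K a)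
  le _ := inf_le_left
  mul_mem := by
    intro d v x hv hx
    refine ⟨?_, ?_⟩
    · rw [add_comm]; exact mul_mem_homogeneous hv hx.1
    · show a * (v * x) ∈ Q.piece (d + 1 + 1)
      rw [mul_left_comm]
      exact Q.mul_mem hv hx.2

lemma le_colon {a : MvPolynomial (Fin n) K} (ha : a ∈ homogeneousSubmodule (Fin n) K 1) (d : ℕ) :
    Q.piece d ≤ (Q.colon a).piece d :=
  fun x hx => ⟨Q.le d hx, Q.mul_mem ha hx⟩

lemma le_addForm {a : MvPolynomial (Fin n) K} (ha : a ∈ homogeneousSubmodule (Fin n) K 1) (d : ℕ) :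
    Q.piece d ≤ (Q.addForm a ha).piece d := by
  cases d with
  | zero => exact le_rfl
  | succ d => exact le_sup_left

lemma hf_split {a : MvPolynomial (Fin n) K} (ha : a ∈ homogeneousSubmodule (Fin n) K 1)
    (ha0 : a ≠ 0) (d : ℕ) :
    Q.hf (d + 1) = (Q.addForm a ha).hf (d + 1) + (Q.colon a).hf d := by
  have h := finrank_sup_map_add (d := d) ha0 ha (Q.le (d + 1))
  have h1 : finrank K ((Q.addForm a ha).piece (d + 1)) + finrank K ((Q.colon a).piece d) =
      finrank K (Q.piece (d + 1)) + finrank K (homogeneousSubmodule (Fin n) K d) := h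
  have h2 := Q.hf_add (d + 1)
  have h3 := (Q.addForm a ha).hf_add (d + 1)
  have h4 := (Q.colon a).hf_add d
  omega

lemma nz_mono {Q' : GI K n} (hQ : Q.NZ) (h : Q.piece 2 ≤ Q'.piece 2) : Q'.NZ :=
  fun p hp => hQ p fun q hq => hp q (h hq)

lemma linearMap_eq_on_one {M : Type*} [AddCommMonoid M] [Module K M]
    {f g : MvPolynomial (Fin n) K →ₗ[K] M} (h : ∀ i, f (X i) = g (X i)) :
    ∀ x ∈ homogeneousSubmodule (Fin n) K 1, f x = g x := by
  intro x hx
  rw [homogeneousSubmodule_one_eq_span_X] at hx
  exact LinearMap.eqOn_span (by rintro _ ⟨i, rfl⟩; exact h i) hx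

lemma aeval_mem {m d : ℕ} {c : Fin m → MvPolynomial (Fin n) K}
    (hc : ∀ i, c i ∈ homogeneousSubmodule (Fin n) K 1) {f : MvPolynomial (Fin m) K}
    (hf : f ∈ homogeneousSubmodule (Fin m) K d) :
    aeval c f ∈ homogeneousSubmodule (Fin n) K d := by
  have := (show f.IsHomogeneous d from hf).aeval c fun i => (hc i : (c i).IsHomogeneous 1)
  simpa using this

/-- The variables may be reduced to a complement of the linear piece. -/
lemma exists_transfer (hQ : Q.NZ) :
    ∃ Q' : GI K (Q.hf 1), Q'.NZ ∧ Q'.piece 1 = ⊥ ∧ (∀ d, Q'.hf d = Q.hf d) ∧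
      ∃ σ : MvPolynomial (Fin (Q.hf 1)) K →ₐ[K] MvPolynomial (Fin n) K,
        (∀ d, ∀ x ∈ homogeneousSubmodule (Fin (Q.hf 1)) K d,
          σ x ∈ homogeneousSubmodule (Fin n) K d ∧ (x ∈ Q'.piece d ↔ σ x ∈ Q.piece d)) := by
  classical
  set L := (Q.piece 1).comap (homogeneousSubmodule (Fin n) K 1).subtype with hLdef
  obtain ⟨W, hC⟩ := exists_isCompl L
  haveI : FiniteDimensional K W := FiniteDimensional.finiteDimensional_submodule W
  haveI : Module.Free K W := Module.Free.of_divisionRing K W
  have hCr : finrank K W = Q.hf 1 := by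
    have h1 := Submodule.finrank_add_eq_of_isCompl hC
    have h2 : finrank K L = finrank K (Q.piece 1) :=
      (Submodule.comapSubtypeEquivOfLe (Q.le 1)).finrank_eq
    have := Q.hf_add 1
    omega
  let bC := (finBasis K W).reindex (finCongr hCr)
  let c : Fin (Q.hf 1) → MvPolynomial (Fin n) K := fun j => ((bC j : _) : homogeneousSubmodule (Fin n) K 1)
  have hc : ∀ j, c j ∈ homogeneousSubmodule (Fin n) K 1 := fun j =>
    ((bC j : _) : homogeneousSubmodule (Fin n) K 1).2
  let π := W.linearProjOfIsCompl L hC.symm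
  let X1 : Fin n → homogeneousSubmodule (Fin n) K 1 := fun i => ⟨X i, isHomogeneous_X K i⟩
  let t : Fin n → MvPolynomial (Fin (Q.hf 1)) K :=
    fun i => ∑ j, C (bC.repr (π (X1 i)) j) * X j
  have ht : ∀ i, t i ∈ homogeneousSubmodule (Fin (Q.hf 1)) K 1 := fun i =>
    Submodule.sum_mem _ fun j _ => isHomogeneous_C_mul_X _ _
  let σ : MvPolynomial (Fin (Q.hf 1)) K →ₐ[K] MvPolynomial (Fin n) K := aeval c
  let τ : MvPolynomial (Fin n) K →ₐ[K] MvPolynomial (Fin (Q.hf 1)) K := aeval t
  have hτ : ∀ x : homogeneousSubmodule (Fin n) K 1,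
      τ x.1 = ∑ j, C (bC.repr (π x) j) * X j := by
    intro x
    let g : homogeneousSubmodule (Fin n) K 1 →ₗ[K] MvPolynomial (Fin (Q.hf 1)) K :=
      (Fintype.linearCombination K (fun j => X j)).comp
        ((bC.equivFun : W →ₗ[K] Fin (Q.hf 1) → K).comp π)
    have hg : ∀ x, g x = ∑ j, C (bC.repr (π x) j) * X j := fun x => by
      simp [g, Fintype.linearCombination_apply, smul_eq_C_mul]
    rw [← hg]
    have hsp : Submodule.span K (Set.range X1) = ⊤ := by
      refine Submodule.map_injective_of_injective (homogeneousSubmodule (Fin n) K 1).injective_subtype ?_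
      rw [Submodule.map_span, ← Set.range_comp, Submodule.map_subtype_top]
      exact homogeneousSubmodule_one_eq_span_X.symm
    have := LinearMap.ext_on_range (f := τ.toLinearMap.comp
      (homogeneousSubmodule (Fin n) K 1).subtype) (g := g) hsp (fun i => by
        simp [hg, X1, τ, t])
    exact LinearMap.congr_fun this x
  have hτσ : ∀ f, τ (σ f) = f := by
    intro f
    have : τ.comp σ = AlgHom.id K _ := algHom_ext fun j => by
      show τ (σ (X j)) = X j
      rw [show σ (X j) = c j from aeval_X _ _, hτ ((bC j : _) : homogeneousSubmodule (Fin n) K 1)]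
      rw [show π ((bC j : _) : homogeneousSubmodule (Fin n) K 1) = bC j from
        Submodule.linearProjOfIsCompl_apply_left hC.symm _]
      simp [Finsupp.single_apply]
    exact AlgHom.congr_fun this f
  have hproj : ∀ d, ∀ f ∈ homogeneousSubmodule (Fin n) K d, f - σ (τ f) ∈ Q.piece d := by
    intro d
    induction d with
    | zero =>
      intro f hf
      rw [homogeneousSubmodule_zero, Submodule.mem_one] at hf
      obtain ⟨r, rfl⟩ := hf
      simp
    | succ d ih =>
      intro f hf
      rw [homogeneous_succ] at hf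
      refine Submodule.mul_induction_on hf (fun v hv u hu => ?_) fun u v hu hv => ?_
      · have hv1 : v - σ (τ v) ∈ Q.piece 1 := by
          set x : homogeneousSubmodule (Fin n) K 1 := ⟨v, hv⟩
          have hx : σ (τ v) = ((π x : W) : homogeneousSubmodule (Fin n) K 1).1 := by
            rw [show v = x.1 from rfl, hτ x, map_sum]
            have e := congrArg (fun w : W => ((w : homogeneousSubmodule (Fin n) K 1) : MvPolynomial (Fin n) K))
              (bC.sum_repr (π x))
            simp only [Submodule.coe_sum, Submodule.coe_smul] at e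
            rw [← e]
            refine Finset.sum_congr rfl fun j _ => ?_
            simp [σ, c, smul_eq_C_mul]
          rw [hx]
          have hL : (π (x - ((π x : W) : homogeneousSubmodule (Fin n) K 1)) : W) = 0 := by
            rw [map_sub, sub_eq_zero]
            exact (Submodule.projectionOnto_apply_left hC.symm _).symm
          exact (Submodule.linearProjOfIsCompl_apply_eq_zero_iff hC.symm).1 hL
        have e : v * u - σ (τ (v * u)) = u * (v - σ (τ v)) + σ (τ v) * (u - σ (τ u)) := by
          rw [map_mul, map_mul]; ring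
        rw [e]
        refine Submodule.add_mem _ ?_ (Q.mul_mem (aeval_mem hc (aeval_mem ht hv)) (ih u hu))
        have := Q.hom_mul_mem hu hv1
        rwa [add_comm] at this
      · rw [map_add, map_add, add_sub_add_comm]
        exact Submodule.add_mem _ hu hv
  have hσinj : Function.Injective σ := Function.LeftInverse.injective hτσ
  let Q' : GI K (Q.hf 1) :=
    { piece := fun d => homogeneousSubmodule (Fin (Q.hf 1)) K d ⊓ (Q.piece d).comap σ.toLinearMap
      le := fun _ => inf_le_left
      mul_mem := fun {d v x} hv hx => ⟨by rw [add_comm]; exact mul_mem_homogeneous hv hx.1, by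
        show σ (v * x) ∈ Q.piece (d + 1)
        rw [map_mul]
        exact Q.mul_mem (aeval_mem hc hv) hx.2⟩ }
  have hQ'f : ∀ d, Q'.hf d = Q.hf d := by
    intro d
    set S' := homogeneousSubmodule (Fin (Q.hf 1)) K d
    have hmap : (S'.map σ.toLinearMap) ⊔ Q.piece d = homogeneousSubmodule (Fin n) K d := by
      refine le_antisymm (sup_le ?_ (Q.le d)) fun f hf => ?_
      · rintro _ ⟨x, hx, rfl⟩
        exact aeval_mem hc hx
      · exact Submodule.mem_sup.2 ⟨σ (τ f), ⟨τ f, aeval_mem ht hf, rfl⟩, _, hproj d f hf, by ring⟩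
    have hinf : (Q'.piece d).map σ.toLinearMap = S'.map σ.toLinearMap ⊓ Q.piece d := by
      ext f
      constructor
      · rintro ⟨x, hx, rfl⟩
        exact ⟨⟨x, hx.1, rfl⟩, hx.2⟩
      · rintro ⟨⟨x, hx, rfl⟩, hf⟩
        exact ⟨x, ⟨hx, hf⟩, rfl⟩
    haveI : FiniteDimensional K (S'.map σ.toLinearMap) := inferInstance
    have e1 := (Submodule.equivMapOfInjective σ.toLinearMap hσinj S').finrank_eq
    have e2 := (Submodule.equivMapOfInjective σ.toLinearMap hσinj (Q'.piece d)).finrank_eq
    have e3 := Submodule.finrank_sup_add_finrank_inf_eq (S'.map σ.toLinearMap) (Q.piece d)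
    rw [hmap, ← hinf, ← e1, ← e2] at e3
    have := Q.hf_add d
    have h5 : Q'.hf d + finrank K (Q'.piece d) = finrank K S' := Q'.hf_add d
    omega
  refine ⟨Q', ?_, ?_, hQ'f, σ, fun d x hx => ⟨aeval_mem hc hx, fun h => h.2, fun h => ⟨hx, h⟩⟩⟩
  · intro p hp
    set p' : Fin n → K := fun i => eval p (t i) with hp'
    have hev : ∀ f, eval p' f = eval p (τ f) := fun f => by
      show aeval p' f = aeval p (aeval t f)
      rw [← AlgHom.comp_apply, comp_aeval]
      rfl
    have h0 : p' = 0 := hQ p' fun q hq => by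
      rw [hev]
      refine hp _ ⟨aeval_mem ht (Q.le 2 hq), ?_⟩
      show σ (τ q) ∈ Q.piece 2
      have := Submodule.sub_mem _ hq (hproj 2 q (Q.le 2 hq))
      simpa using this
    funext j
    have := hev (c j)
    rw [show c j = σ (X j) from (aeval_X _ _).symm, hτσ, eval_X, h0] at this
    rw [Pi.zero_apply, ← this, show σ (X j) = c j from aeval_X _ _, eval_zero]
    exact IsHomogeneous.coeff_eq_zero (hc j : (c j).IsHomogeneous 1) (by simp)
  · have h := hQ'f 1
    have hfin : finrank K (homogeneousSubmodule (Fin (Q.hf 1)) K 1) = Q.hf 1 := finrank_homogeneous_one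
    have := Q'.hf_add 1
    exact Submodule.finrank_eq_zero.1 (by omega)

end GI

end Vale.Agent.P200.SmallH2
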