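import Vale.Agent.P200.SmallH2.Five

/-!
The Kruskal-Katona growth bound for quadrics without a common zero over an algebraically
closed field, when the quotient has dimension at most ten in degree two.
-/

namespace Vale.Agent.P200.SmallH2

open MvPolynomial Module

variable {K : Type*} [Field K]

lemma GI.growth_of_reducible [IsAlgClosed K] {e : ℕ} (Q : GI K e) (hQ : Q.NZ) (h1 : Q.piece 1 = ⊥)
    (h10 : Q.hf 2 ≤ 10)
    (IH : ∀ Q' : GI K e, Q'.NZ → Q'.hf 1 < e → Q'.hf 2 ≤ 10 → Q'.Growth)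
    {a b : MvPolynomial (Fin e) K} (ha : a ∈ homogeneousSubmodule (Fin e) K 1)
    (hb : b ∈ homogeneousSubmodule (Fin e) K 1) (hab : a * b ∈ Q.piece 2) (ha0 : a ≠ 0) (hb0 : b ≠ 0) :
    ∀ q, 1 ≤ q → Feas (q + 1) (Q.hf (q + 1)) (Q.hf (q + 1 + 1)) := by
  intro q hq
  wlog hle : (Q.colon a).hf q ≤ (Q.colon b).hf q generalizing a b
  · exact this hb ha (mul_comm a b ▸ hab) hb0 ha0 (le_of_not_ge hle)
  have hlt : ∀ (Q' : GI K e) (v : MvPolynomial (Fin e) K), v ≠ 0 → v ∈ Q'.piece 1 → Q'.hf 1 < e := by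
    intro Q' v hv hmem
    have := Q'.hf_add 1
    rw [finrank_homogeneous_one] at this
    have h : finrank K (Q'.piece 1) ≠ 0 := fun h => hv (by
      have h0 : Q'.piece 1 = ⊥ := Submodule.finrank_eq_zero.1 h
      rw [h0] at hmem
      simpa using hmem)
    omega
  have hA : (Q.addForm a ha).Growth := IH _ (Q.nz_mono hQ (Q.le_addForm ha 2))
    (hlt _ a ha0 (Submodule.mem_sup_right ⟨1, isHomogeneous_one _ _, by simp⟩))
    ((Q.hf_mono (Q.le_addForm ha 2)).trans h10)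
  have hC : (Q.colon a).Growth := IH _ (Q.nz_mono hQ (Q.le_colon ha 2))
    (hlt _ b hb0 ⟨hb, by simpa using hab⟩) ((Q.hf_mono (Q.le_colon ha 2)).trans h10)
  have hsub : (Q.addForm b hb).piece (q + 1) ≤ (Q.colon a).piece (q + 1) := by
    refine sup_le (Q.le_colon ha _) ?_
    rintro _ ⟨x, hx, rfl⟩
    refine ⟨by rw [add_comm]; exact mul_mem_homogeneous hb hx, ?_⟩
    show a * (b * x) ∈ Q.piece (q + 1 + 1)
    have := Q.hom_mul_mem hx hab
    rw [show q + 1 + 1 = 2 + q by omega, show a * (b * x) = x * (a * b) by ring]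
    exact this
  have e1 := Q.hf_split ha ha0 q
  have e2 := Q.hf_split hb hb0 q
  have e3 := Q.hf_split ha ha0 (q + 1)
  have e4 := GI.hf_mono (Q.addForm b hb) hsub
  rw [e1, e3]
  exact (hA (q + 1) (by omega)).cone (hC q hq) le_rfl (by omega)

theorem GI.growth [IsAlgClosed K] : ∀ (e n : ℕ) (Q : GI K n), Q.NZ → Q.hf 1 = e → Q.hf 2 ≤ 10 →
    Q.Growth := by
  intro e
  induction e using Nat.strong_induction_on with
  | _ e ih =>
  intro n Q hQ he h10 d hd
  obtain ⟨Q', h1, h2, h3, -⟩ := Q.exists_transfer hQ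
  rw [← h3 d, ← h3 (d + 1)]
  rw [← h3 2] at h10
  have he' : Q'.hf 1 = e := (h3 1).trans he
  clear h3
  revert Q'
  rw [he]
  intro Q' h10 h1 h2 he'
  rcases Nat.eq_zero_or_pos e with rfl | hpos
  · rw [Q'.hf_eq_zero_of_le he' (by omega : 1 ≤ d + 1)]
    exact feas_zero _ _
  rcases eq_or_lt_of_le hd with rfl | hd2
  · exact feas_one (Q'.hf_two_le h1)
  obtain ⟨q, rfl⟩ : ∃ q, d = q + 1 := ⟨d - 1, by omega⟩
  by_cases h5 : e = 5 ∧ 9 ≤ Q'.hf 2
  · obtain ⟨rfl, h9⟩ := h5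
    exact Q'.five_aux h1 h9 (fun Q'' g1 g2 g3 => ih _ g2 5 Q'' g1 rfl g3) _ (by omega)
  · obtain ⟨a, ha, b, hb, hab, ha0, hb0⟩ : ∃ a ∈ homogeneousSubmodule (Fin e) K 1,
        ∃ b ∈ homogeneousSubmodule (Fin e) K 1, a * b ∈ Q'.piece 2 ∧ a ≠ 0 ∧ b ≠ 0 := by
      by_contra hc
      have hh := Q'.two_mul_le hpos fun a ha b hb hab => by
        by_contra hn
        push Not at hn
        exact hc ⟨a, ha, b, hb, hab, hn.1, hn.2⟩
      have hc2 := Q'.hf_two_le h1
      rw [he'] at hc2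
      rcases Nat.lt_or_ge e 6 with h6 | h6
      · interval_cases e <;> simp [Nat.choose] at hc2 <;> omega
      · omega
    exact Q'.growth_of_reducible h1 h2 h10
      (fun Q'' g1 g2 g3 => ih _ g2 e Q'' g1 rfl g3) ha hb hab ha0 hb0 q (by omega)

end Vale.Agent.P200.SmallH2
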