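import Vale.Agent.P200.SmallH2.Graded
import Mathlib.RingTheory.MvPolynomial.Ideal
import Mathlib.RingTheory.Ideal.KrullsHeightTheorem
import Mathlib.RingTheory.Adjoin.FG

/-!
Two dimension counts over an algebraically closed field: the degree-two bound, and the
existence of a product of linear forms in a space of quadrics of small codimension.
-/

namespace Vale.Agent.P200.SmallH2

open MvPolynomial Module

lemma le_height_of_chain {R : Type*} [CommRing R] (P : ℕ → Ideal R) (m : ℕ)
    (hp : ∀ k, (P k).IsPrime) (hs : ∀ k < m, P k < P (k + 1)) : (m : ℕ∞) ≤ (P m).height := by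
  induction m with
  | zero => simp
  | succ m ih =>
    haveI := hp m
    haveI := hp (m + 1)
    calc ((m + 1 : ℕ) : ℕ∞) = (m : ℕ∞) + 1 := by push_cast; rfl
      _ ≤ (P m).height + 1 := by gcongr; exact ih fun k hk => hs k (Nat.lt_succ_of_lt hk)
      _ ≤ (P (m + 1)).height := Ideal.height_add_one_le_of_lt_of_isPrime (hs m (Nat.lt_succ_self m))

section Kill

variable {K : Type*} [Field K] {σ : Type*} (idx : σ → ℕ)

/-- Set the variables of index below `k` to zero. -/
noncomputable def kill (k : ℕ) : MvPolynomial σ K →ₐ[K] MvPolynomial σ K :=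
  aeval fun v => if idx v < k then 0 else X v

lemma kill_X (k : ℕ) (v : σ) : kill (K := K) idx k (X v) = if idx v < k then 0 else X v :=
  aeval_X _ _

lemma kill_kill {k l : ℕ} (h : k ≤ l) (f : MvPolynomial σ K) :
    kill idx l (kill idx k f) = kill idx l f := by
  have : (kill idx l).comp (kill idx k) = kill (K := K) idx l := algHom_ext fun v => by
    rw [AlgHom.comp_apply, kill_X, kill_X]
    split
    · rw [map_zero, if_pos (by omega)]
    · rw [kill_X]
  exact AlgHom.congr_fun this f

end Kill

variable {K : Type*} [Field K] {n : ℕ}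

local instance finiteHom' (d : ℕ) : Module.Finite K (homogeneousSubmodule (Fin n) K d) :=
  Module.Finite.iff_fg.2 (homogeneousSubmodule_fg (Fin n) K d)

lemma mem_span_X_of_constantCoeff {σ : Type*} {a : MvPolynomial σ K} (h : constantCoeff a = 0) :
    a ∈ Ideal.span (Set.range (X : σ → MvPolynomial σ K)) := by
  rw [← Set.image_univ, mem_ideal_span_X_image]
  intro m hm
  by_contra hc
  push Not at hc
  have : m = 0 := Finsupp.ext fun i => by simpa using hc i trivial
  exact mem_support_iff.1 hm (this ▸ h)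

lemma GI.X_mem_radical [IsAlgClosed K] (Q : GI K n) (hQ : Q.NZ) (i : Fin n) :
    (X i : MvPolynomial (Fin n) K) ∈ (Ideal.span (Q.piece 2 : Set (MvPolynomial (Fin n) K))).radical := by
  rw [← vanishingIdeal_zeroLocus_eq_radical (K := K), mem_vanishingIdeal_iff]
  intro p hp
  have : p = 0 := hQ p fun q hq => by
    have := (mem_zeroLocus_iff.1 hp) q (Ideal.subset_span hq)
    simpa using this
  simp [this]

/-- Quadrics without a common zero number at least as many as the variables. -/
lemma GI.le_finrank_two [IsAlgClosed K] (Q : GI K n) (hQ : Q.NZ) : n ≤ finrank K (Q.piece 2) := by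
  classical
  let b := finBasis K (Q.piece 2)
  set s : Set (MvPolynomial (Fin n) K) := Set.range fun i => (b i : MvPolynomial (Fin n) K)
  have hsQ : Ideal.span (Q.piece 2 : Set (MvPolynomial (Fin n) K)) ≤ Ideal.span s := by
    refine Ideal.span_le.2 fun x hx => ?_
    have := congrArg Subtype.val (b.sum_repr ⟨x, hx⟩)
    simp only [Submodule.coe_sum, Submodule.coe_smul] at this
    rw [← this]
    refine Ideal.sum_mem _ fun i _ => ?_
    rw [Algebra.smul_def]
    exact Ideal.mul_mem_left _ _ (Ideal.subset_span ⟨i, rfl⟩)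
  have hne : Ideal.span s ≠ ⊤ := by
    intro htop
    have hle : Ideal.span s ≤ RingHom.ker (constantCoeff (σ := Fin n) (R := K)) := by
      refine Ideal.span_le.2 ?_
      rintro _ ⟨i, rfl⟩
      exact IsHomogeneous.coeff_eq_zero (Q.le 2 (b i).2 : IsHomogeneous _ 2) (by simp)
    have := hle (htop ▸ Submodule.mem_top : (1 : MvPolynomial (Fin n) K) ∈ Ideal.span s)
    simp at this
  obtain ⟨P, hP⟩ := Ideal.nonempty_minimalPrimes hne
  haveI := hP.1.1
  let idx : Fin n → ℕ := fun i => i
  have hker : RingHom.ker (kill (K := K) idx n).toRingHom ≤ P := by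
    intro a ha
    have h0 : constantCoeff a = 0 := by
      have hk : kill (K := K) idx n = (aeval fun _ => (0 : MvPolynomial (Fin n) K)) :=
        algHom_ext fun v => by simp [kill_X, idx]
      have : kill idx n a = 0 := ha
      rw [hk, aeval_zero', ← map_zero (algebraMap K (MvPolynomial (Fin n) K))] at this
      exact (FaithfulSMul.algebraMap_injective K _) this
    refine Ideal.span_le.2 ?_ (mem_span_X_of_constantCoeff h0)
    rintro _ ⟨i, rfl⟩
    exact hP.1.1.radical.le (Ideal.radical_mono (hsQ.trans hP.1.2) (Q.X_mem_radical hQ i))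
  have h1 : (n : ℕ∞) ≤ (RingHom.ker (kill (K := K) idx n).toRingHom).height := by
    refine le_height_of_chain (fun k => RingHom.ker (kill (K := K) idx k).toRingHom) n
      (fun k => RingHom.ker_isPrime _) fun k hk => lt_of_le_of_ne (fun a ha => ?_) fun e => ?_
    · show kill idx (k + 1) a = 0
      rw [← kill_kill idx (Nat.le_succ k), show kill idx k a = 0 from ha, map_zero]
    · have h : (X ⟨k, hk⟩ : MvPolynomial (Fin n) K) ∈
          RingHom.ker (kill (K := K) idx (k + 1)).toRingHom := by
        show kill idx (k + 1) (X ⟨k, hk⟩) = 0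
        rw [kill_X, if_pos (by simp [idx])]
      rw [← e] at h
      have h : kill (K := K) idx k (X ⟨k, hk⟩) = 0 := h
      rw [kill_X, if_neg (by simp [idx])] at h
      exact X_ne_zero _ h
  have h2 := (h1.trans (Ideal.height_mono hker)).trans (Ideal.height_le_card_of_mem_minimalPrimes_span (Set.finite_range _) hP)
  have h3 : s.ncard ≤ finrank K (Q.piece 2) := by
    simp only [s]
    rw [← Set.image_univ]
    exact (Set.ncard_image_le Set.finite_univ).trans (by simp)
  exact (Nat.cast_le.1 h2).trans h3

/-- In degree two the quotient is at most the number of pairs of its linear forms. -/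
lemma GI.hf_two_le [IsAlgClosed K] (Q : GI K n) (hQ : Q.NZ) : Q.hf 2 ≤ (Q.hf 1).choose 2 := by
  obtain ⟨Q', h1, -, h3, -⟩ := Q.exists_transfer hQ
  have := Q'.le_finrank_two h1
  have h4 := Q'.hf_add 2
  rw [finrank_homogeneous] at h4
  rw [← h3 2]
  have h5 : (Q.hf 1 + 2 - 1).choose 2 = Q.hf 1 + (Q.hf 1).choose 2 := by
    rw [show Q.hf 1 + 2 - 1 = Q.hf 1 + 1 by omega, Nat.choose_succ_succ', Nat.choose_one_right]
  omega

/-- A weight detecting the difference of the two degrees in two groups of variables. -/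
def balance (e : ℕ) : Fin e ⊕ Fin e → ℤ := Sum.elim (fun _ => 1) (fun _ => -1)

/-- The products of a variable from each group. -/
noncomputable def segre (K : Type*) [Field K] (e : ℕ) :
    MvPolynomial (Fin e × Fin e) K →ₐ[K] MvPolynomial (Fin e ⊕ Fin e) K :=
  aeval fun ij => X (Sum.inl ij.1) * X (Sum.inr ij.2)

lemma monomial_mem_segre {e : ℕ} (c : K) : ∀ s : Fin e ⊕ Fin e →₀ ℕ,
    Finsupp.weight (balance e) s = 0 → monomial s c ∈ (segre K e).range := by
  intro s
  induction hN : s.degree using Nat.strong_induction_on generalizing s with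
  | _ N ih =>
  intro hs
  by_cases h0 : s = 0
  · subst h0
    exact ⟨C c, by simp [segre, monomial_zero']⟩
  have hw : Finsupp.weight (balance e) s = ∑ v, (s v : ℤ) * balance e v := by
    rw [Finsupp.weight_apply, Finsupp.sum_fintype _ _ (fun _ => by simp)]
    simp [nsmul_eq_mul]
  rw [hw, Fintype.sum_sum_type] at hs
  simp only [balance, Sum.elim_inl, Sum.elim_inr, mul_one, mul_neg, Finset.sum_neg_distrib] at hs
  have hpos : (∃ i, s (Sum.inl i) ≠ 0) ∧ ∃ j, s (Sum.inr j) ≠ 0 := by
    by_contra hc
    apply h0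
    have hz : (∀ i, s (Sum.inl i) = 0) ∧ ∀ j, s (Sum.inr j) = 0 := by
      rw [not_and_or] at hc
      push Not at hc
      rcases hc with hc | hc
      · refine ⟨hc, fun j => ?_⟩
        simp only [hc, Nat.cast_zero, Finset.sum_const_zero, zero_add, neg_eq_zero] at hs
        exact_mod_cast (Finset.sum_eq_zero_iff_of_nonneg fun i _ => by positivity).1 hs j (Finset.mem_univ _)
      · refine ⟨fun i => ?_, hc⟩
        simp only [hc, Nat.cast_zero, Finset.sum_const_zero, neg_zero, add_zero] at hs
        exact_mod_cast (Finset.sum_eq_zero_iff_of_nonneg fun i _ => by positivity).1 hs i (Finset.mem_univ _)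
    exact Finsupp.ext fun v => by cases v <;> simp [hz.1, hz.2]
  obtain ⟨⟨i, hi⟩, j, hj⟩ := hpos
  set d := Finsupp.single (Sum.inl i : Fin e ⊕ Fin e) 1 + Finsupp.single (Sum.inr j) 1
  have hd : d ≤ s := fun v => by
    rcases eq_or_ne v (Sum.inl i) with rfl | h1
    · simp [d, Nat.one_le_iff_ne_zero, hi]
    · rcases eq_or_ne v (Sum.inr j) with rfl | h2
      · simp [d, Nat.one_le_iff_ne_zero, hj]
      · simp [d, Finsupp.single_apply, h1.symm, h2.symm]
  obtain ⟨r, hr⟩ : ∃ r, s = d + r := ⟨s - d, (add_tsub_cancel_of_le hd).symm⟩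
  have hwr : Finsupp.weight (balance e) r = 0 := by
    have h2 : Finsupp.weight (balance e) d = 0 := by simp [d, balance, Finsupp.weight_single]
    have h1 : Finsupp.weight (balance e) s = 0 := by
      rw [hw, Fintype.sum_sum_type]
      simpa [balance] using hs
    rw [hr, map_add, h2, zero_add] at h1
    exact h1
  have hdeg : r.degree < N := by
    rw [← hN, hr, map_add]
    simp [d, Finsupp.degree_single]
  obtain ⟨g, hg⟩ := ih _ hdeg r rfl hwr
  refine ⟨X (i, j) * g, ?_⟩
  have hX : segre K e (X (i, j)) = monomial d 1 := by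
    rw [segre, aeval_X]
    simp [d, X, monomial_mul]
  have hg' : segre K e g = monomial r c := hg
  show segre K e (X (i, j) * g) = _
  rw [map_mul, hX, hg', monomial_mul, hr, one_mul]

lemma mem_segre_of_balanced {e : ℕ} {f : MvPolynomial (Fin e ⊕ Fin e) K}
    (h : IsWeightedHomogeneous (balance e) f 0) : f ∈ (segre K e).range := by
  rw [as_sum f]
  exact Subalgebra.sum_mem _ fun s hs => monomial_mem_segre _ s (h (mem_support_iff.1 hs))

/-- If no product of two nonzero linear forms lies in the quadrics, the quotient in degree two is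
large. -/
lemma GI.two_mul_le [IsAlgClosed K] (Q : GI K n) (hn : 1 ≤ n)
    (hirr : ∀ a ∈ homogeneousSubmodule (Fin n) K 1, ∀ b ∈ homogeneousSubmodule (Fin n) K 1,
      a * b ∈ Q.piece 2 → a = 0 ∨ b = 0) : 2 * n ≤ Q.hf 2 + 1 := by
  classical
  set m := Q.hf 2 with hm
  set S2 := homogeneousSubmodule (Fin n) K 2 with hS2
  set Q2 := (Q.piece 2).comap S2.subtype
  have hq : finrank K (S2 ⧸ Q2) = m := by
    have h1 := Submodule.finrank_quotient_add_finrank Q2
    have h2 : finrank K Q2 = finrank K (Q.piece 2) :=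
      (Submodule.comapSubtypeEquivOfLe (Q.le 2)).finrank_eq
    have h3 : Q.hf 2 + finrank K (Q.piece 2) = finrank K S2 := Q.hf_add 2
    omega
  let g : S2 →ₗ[K] Fin m → K :=
    ((finBasisOfFinrankEq K (S2 ⧸ Q2) hq).equivFun : (S2 ⧸ Q2) →ₗ[K] Fin m → K).comp Q2.mkQ
  let xx : Fin n × Fin n → S2 := fun ij => ⟨X ij.1 * X ij.2, mul_mem_homogeneous
    (isHomogeneous_X K ij.1) (isHomogeneous_X K ij.2)⟩
  let F₀ : Fin m → MvPolynomial (Fin n × Fin n) K := fun k => ∑ ij, C (g (xx ij) k) * X ij
  let F : Fin m → MvPolynomial (Fin n ⊕ Fin n) K := fun k => segre K n (F₀ k)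
  have hF : ∀ k, F k = ∑ ij : Fin n × Fin n, C (g (xx ij) k) * (X (Sum.inl ij.1) * X (Sum.inr ij.2)) :=
    fun k => by simp [F, F₀, segre]
  have hrad : ∀ i j, (X (Sum.inl i) * X (Sum.inr j) : MvPolynomial (Fin n ⊕ Fin n) K) ∈
      (Ideal.span (Set.range F)).radical := by
    intro i j
    rw [← vanishingIdeal_zeroLocus_eq_radical (K := K), mem_vanishingIdeal_iff]
    intro p hp
    let a : MvPolynomial (Fin n) K := ∑ u, p (Sum.inl u) • X u
    let b : MvPolynomial (Fin n) K := ∑ u, p (Sum.inr u) • X u
    have hlin : ∀ c : Fin n → K, (∑ u, c u • X u : MvPolynomial (Fin n) K) ∈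
        homogeneousSubmodule (Fin n) K 1 :=
      fun c => Submodule.sum_mem _ fun u _ => Submodule.smul_mem _ _ (isHomogeneous_X K u)
    have hab : a * b = ((∑ ij : Fin n × Fin n, (p (Sum.inl ij.1) * p (Sum.inr ij.2)) • xx ij : S2) :
        MvPolynomial (Fin n) K) := by
      simp only [a, b, Submodule.coe_sum, Submodule.coe_smul, xx, Finset.sum_mul_sum]
      rw [Fintype.sum_prod_type]
      refine Finset.sum_congr rfl fun u _ => Finset.sum_congr rfl fun w _ => ?_
      rw [smul_mul_smul_comm]
    have hg : g (∑ ij : Fin n × Fin n, (p (Sum.inl ij.1) * p (Sum.inr ij.2)) • xx ij) = 0 := by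
      funext k
      have := (mem_zeroLocus_iff.1 hp) (F k) (Ideal.subset_span ⟨k, rfl⟩)
      rw [hF] at this
      simp only [map_sum, map_mul, aeval_C, aeval_X, Algebra.algebraMap_self, RingHom.id_apply] at this
      simp only [map_sum, map_smul, Finset.sum_apply, Pi.smul_apply, smul_eq_mul, Pi.zero_apply]
      rw [← this]
      exact Finset.sum_congr rfl fun ij _ => by ring
    have hmem : a * b ∈ Q.piece 2 := by
      rw [hab]
      simp only [g, LinearMap.comp_apply, LinearEquiv.coe_coe] at hg
      have := (LinearEquiv.map_eq_zero_iff _).1 hg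
      exact (Submodule.Quotient.mk_eq_zero Q2).1 this
    have hc : ∀ (c : Fin n → K) u, (∑ w, c w • X w : MvPolynomial (Fin n) K) = 0 → c u = 0 := by
      intro c u h
      have := congrArg (coeff (Finsupp.single u 1)) h
      simpa [coeff_X', Finsupp.single_left_inj, coeff_sum] using this
    rcases hirr a (hlin _) b (hlin _) hmem with h | h
    · simp [hc _ i h]
    · simp [hc _ j h]
  -- balanced subring
  let R := (segre K n).toRingHom.range
  let z : Fin n × Fin n → R := fun ij => ⟨segre K n (X ij), X ij, rfl⟩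
  let F' : Fin m → R := fun k => ⟨F k, F₀ k, rfl⟩
  have hbalX : ∀ ij : Fin n × Fin n, IsWeightedHomogeneous (balance n)
      (X (Sum.inl ij.1) * X (Sum.inr ij.2) : MvPolynomial (Fin n ⊕ Fin n) K) 0 := fun ij => by
    simpa [balance] using (isWeightedHomogeneous_X K (balance n) (Sum.inl ij.1)).mul
      (isWeightedHomogeneous_X K (balance n) (Sum.inr ij.2))
  have hbalF : ∀ k, IsWeightedHomogeneous (balance n) (F k) 0 := fun k => by
    rw [hF]
    refine IsWeightedHomogeneous.sum _ _ _ fun ij _ => ?_
    simpa using (isWeightedHomogeneous_C (balance n) (g (xx ij) k)).mul (hbalX ij)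
  have hpow : ∀ ij, ∃ N, z ij ^ N ∈ Ideal.span (Set.range F') := by
    intro ij
    obtain ⟨N, hN⟩ := hrad ij.1 ij.2
    obtain ⟨c, hc⟩ := Ideal.mem_span_range_iff_exists_fun.1 hN
    refine ⟨N, Ideal.mem_span_range_iff_exists_fun.2 ⟨fun k => ⟨weightedHomogeneousComponent (balance n) 0 (c k), ?_⟩, ?_⟩⟩
    · exact mem_segre_of_balanced (weightedHomogeneousComponent_isWeightedHomogeneous 0 (c k))
    · apply Subtype.ext
      push_cast
      have hlhs : (segre K n (X ij)) ^ N = (X (Sum.inl ij.1) * X (Sum.inr ij.2)) ^ N := by simp [segre]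
      show ∑ k, weightedHomogeneousComponent (balance n) 0 (c k) * F k = (segre K n (X ij)) ^ N
      rw [hlhs]
      have hh : IsWeightedHomogeneous (balance n)
          ((X (Sum.inl ij.1) * X (Sum.inr ij.2) : MvPolynomial (Fin n ⊕ Fin n) K) ^ N) 0 := by
        simpa using (hbalX ij).pow N
      conv_rhs => rw [← weightedHomogeneousComponent_eq_self hh, ← hc, map_sum]
      refine Finset.sum_congr rfl fun k _ => ?_
      conv_rhs => rw [as_sum (c k), Finset.sum_mul, map_sum]
      conv_lhs => rw [as_sum (c k), map_sum, Finset.sum_mul]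
      refine Finset.sum_congr rfl fun s _ => ?_
      have hs := isWeightedHomogeneous_monomial (balance n) s (coeff s (c k)) rfl
      have hsF := hs.mul (hbalF k)
      rw [add_zero] at hsF
      rw [weightedHomogeneousComponent_of_mem hs, weightedHomogeneousComponent_of_mem hsF]
      split_ifs <;> simp
  -- chain of primes
  let idx : Fin n ⊕ Fin n → ℕ :=
    Sum.elim (fun i => if (i : ℕ) + 1 < n then (i : ℕ) else 3 * n) (fun j => n - 1 + (j : ℕ))
  let P : ℕ → Ideal R := fun k => RingHom.ker ((kill (K := K) idx k).toRingHom.comp R.subtype)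
  have hPz : ∀ k ij, z ij ∈ P k ↔ idx (Sum.inl ij.1) < k ∨ idx (Sum.inr ij.2) < k := by
    intro k ij
    show kill (K := K) idx k (segre K n (X ij)) = 0 ↔ _
    rw [segre, aeval_X, map_mul, kill_X, kill_X]
    by_cases h1 : idx (Sum.inl ij.1) < k <;> by_cases h2 : idx (Sum.inr ij.2) < k <;>
      simp [h1, h2, X_ne_zero]
  have hstrict : ∀ k < 2 * n - 1, P k < P (k + 1) := by
    intro k hk
    refine lt_of_le_of_ne (fun a ha => ?_) fun e => ?_
    · show kill idx (k + 1) (a : MvPolynomial (Fin n ⊕ Fin n) K) = 0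
      rw [← kill_kill idx (Nat.le_succ k), show kill idx k (a : MvPolynomial _ K) = 0 from ha, map_zero]
    · by_cases hk' : k + 1 < n
      · have h1 : z (⟨k, by omega⟩, ⟨0, by omega⟩) ∈ P (k + 1) := (hPz _ _).2 (Or.inl (by simp [idx, hk']))
        rw [← e, hPz] at h1
        simp [idx, hk'] at h1
        omega
      · have h1 : z (⟨n - 1, by omega⟩, ⟨k - (n - 1), by omega⟩) ∈ P (k + 1) :=
          (hPz _ _).2 (Or.inr (by simp [idx]; omega))
        rw [← e, hPz] at h1
        simp [idx, show ¬ (n - 1 + 1 < n) by omega] at h1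
        omega
  have hne : Ideal.span (Set.range F') ≠ ⊤ := by
    intro htop
    have hle : Ideal.span (Set.range F') ≤ P (2 * n - 1) := by
      refine Ideal.span_le.2 ?_
      rintro _ ⟨k, rfl⟩
      show kill (K := K) idx (2 * n - 1) (F k) = 0
      rw [hF, map_sum]
      refine Finset.sum_eq_zero fun ij _ => ?_
      have : kill (K := K) idx (2 * n - 1) (X (Sum.inr ij.2)) = 0 := by
        rw [kill_X, if_pos (by simp [idx]; omega)]
      simp [this]
    have : (1 : R) ∈ P (2 * n - 1) := hle (htop ▸ Submodule.mem_top)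
    simp [P] at this
  obtain ⟨P', hP'⟩ := Ideal.nonempty_minimalPrimes hne
  haveI := hP'.1.1
  have hle : P (2 * n - 1) ≤ P' := by
    rintro ⟨_, g₀, rfl⟩ hg
    have hk : ∀ f, kill (K := K) idx (2 * n - 1) (segre K n f) =
        algebraMap K _ (constantCoeff f) := by
      intro f
      have : (kill (K := K) idx (2 * n - 1)).comp (segre K n) = aeval fun _ => 0 :=
        algHom_ext fun ij => by
          rw [AlgHom.comp_apply, segre, aeval_X, map_mul, kill_X (v := Sum.inr ij.2),
            if_pos (by simp [idx]; omega), mul_zero, aeval_X]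
      rw [← AlgHom.comp_apply, this, aeval_zero']
    have h0 : constantCoeff g₀ = 0 := by
      have hg : kill (K := K) idx (2 * n - 1) (segre K n g₀) = 0 := hg
      rw [hk, ← map_zero (algebraMap K (MvPolynomial (Fin n ⊕ Fin n) K))] at hg
      exact FaithfulSMul.algebraMap_injective K _ hg
    have hmap : Ideal.map (segre K n).toRingHom.rangeRestrict
        (Ideal.span (Set.range X)) ≤ P' := by
      rw [Ideal.map_span]
      refine Ideal.span_le.2 ?_
      rintro _ ⟨_, ⟨ij, rfl⟩, rfl⟩
      obtain ⟨N, hN⟩ := hpow ij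
      exact hP'.1.1.mem_of_pow_mem N (hP'.1.2 hN)
    exact hmap (Ideal.mem_map_of_mem _ (mem_span_X_of_constantCoeff h0))
  have h1 := le_height_of_chain P (2 * n - 1) (fun k => RingHom.ker_isPrime _) hstrict
  have h2 := (h1.trans (Ideal.height_mono hle)).trans
    (Ideal.height_le_card_of_mem_minimalPrimes_span (Set.finite_range _) hP')
  have h3 : (Set.range F').ncard ≤ m := by
    rw [← Set.image_univ]
    exact (Set.ncard_image_le Set.finite_univ).trans (by simp)
  have := (Nat.cast_le.1 h2).trans h3
  omega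

end Vale.Agent.P200.SmallH2
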