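import Vale.Agent.P200.SmallH2.Graded
import Mathlib.RingTheory.MvPolynomial.Ideal

/-!
Exactness of the Koszul cochain complex of the variables on the successive quotients of a
regular sequence of quadrics, degree by degree.
-/

namespace Vale.Agent.P200.SmallH2

open MvPolynomial Module Finset

section Differential

variable {S : Type*} [CommRing S] (x : ℕ → S)

/-- The Koszul differential on cochains indexed by finite sets of indices below `r`. -/
noncomputable def dk : ℕ → ((Finset ℕ → S) →ₗ[S] (Finset ℕ → S))
  | 0 => 0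
  | r + 1 => LinearMap.pi fun T =>
      if r ∈ T then x r • LinearMap.proj (T.erase r) -
        (LinearMap.proj (T.erase r)).comp ((dk r).comp (LinearMap.funLeft S S (insert r)))
      else (LinearMap.proj T).comp (dk r)

lemma dk_succ_mem {r : ℕ} {T : Finset ℕ} (u : Finset ℕ → S) (h : r ∈ T) :
    dk x (r + 1) u T = x r * u (T.erase r) - dk x r (fun T' => u (insert r T')) (T.erase r) := by
  rw [dk, LinearMap.pi_apply, if_pos h]
  rfl

lemma dk_succ_notMem {r : ℕ} {T : Finset ℕ} (u : Finset ℕ → S) (h : r ∉ T) :
    dk x (r + 1) u T = dk x r u T := by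
  rw [dk, LinearMap.pi_apply, if_neg h]
  rfl

lemma dk_zero_apply (u : Finset ℕ → S) (T : Finset ℕ) : dk x 0 u T = 0 := rfl

/-- The value at `T` only depends on the values at sets obtained by removing one element. -/
lemma dk_induction {r : ℕ} : ∀ {u : Finset ℕ → S} {T : Finset ℕ} (P : S → Prop), P 0 →
    (∀ a b, P a → P b → P (a - b)) → (∀ i, ∀ T', T' ⊆ T → T'.card + 1 = T.card → P (x i * u T')) →
    P (dk x r u T) := by
  induction r with
  | zero => intro u T P h0 _ _; rwa [dk_zero_apply]
  | succ r ih =>
    intro u T P h0 hsub hu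
    by_cases h : r ∈ T
    · rw [dk_succ_mem x u h]
      refine hsub _ _ (hu r _ (erase_subset _ _) (card_erase_add_one h)) (ih P h0 hsub ?_)
      intro i T' hT' hc
      refine hu i _ (insert_subset h (hT'.trans (erase_subset _ _))) ?_
      rw [card_insert_of_notMem fun hr => (mem_erase.1 (hT' hr)).1 rfl, hc, ← card_erase_add_one h]
    · rw [dk_succ_notMem x u h]
      exact ih P h0 hsub hu

lemma dk_mem {r : ℕ} {u : Finset ℕ → S} {T : Finset ℕ} (J : Ideal S)
    (hu : ∀ T', T' ⊆ T → T'.card + 1 = T.card → u T' ∈ J) : dk x r u T ∈ J :=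
  dk_induction x (· ∈ J) J.zero_mem (fun _ _ => J.sub_mem) fun _ T' h1 h2 =>
    J.mul_mem_left _ (hu T' h1 h2)

lemma dk_congr {r : ℕ} {u v : Finset ℕ → S} {T : Finset ℕ}
    (h : ∀ T', T' ⊆ T → T'.card + 1 = T.card → u T' = v T') : dk x r u T = dk x r v T := by
  have := dk_mem x (r := r) (u := u - v) (T := T) ⊥ fun T' h1 h2 => by simp [h T' h1 h2]
  rwa [map_sub, Pi.sub_apply, Ideal.mem_bot, sub_eq_zero] at this

lemma dk_empty (r : ℕ) (u : Finset ℕ → S) : dk x r u ∅ = 0 :=
  dk_induction x (· = 0) rfl (fun a b ha hb => by rw [ha, hb, sub_zero])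
    fun _ _ _ hc => absurd hc (by simp)

lemma dk_dk {r : ℕ} : ∀ (u : Finset ℕ → S) (T : Finset ℕ), dk x r (dk x r u) T = 0 := by
  induction r with
  | zero => intro u T; rfl
  | succ r ih =>
    intro u T
    by_cases h : r ∈ T
    · rw [dk_succ_mem x _ h, dk_succ_notMem x u (notMem_erase r T)]
      have key : dk x r (fun T' => dk x (r + 1) u (insert r T')) (T.erase r) =
          dk x r (x r • u - dk x r (fun T' => u (insert r T'))) (T.erase r) := by
        refine dk_congr x fun T' h1 _ => ?_
        have hr : r ∉ T' := fun hr => (mem_erase.1 (h1 hr)).1 rfl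
        rw [dk_succ_mem x u (mem_insert_self _ _), erase_insert hr]
        rfl
      rw [key, map_sub, map_smul, Pi.sub_apply, ih, Pi.smul_apply, smul_eq_mul, sub_zero, sub_self]
    · rw [dk_succ_notMem x _ h, ← ih u T]
      refine dk_congr x fun T' h1 _ => ?_
      exact dk_succ_notMem x u fun hr => h (h1 hr)

/-- Elements of the ideal of the first `r` scalars are values at the top set. -/
lemma exists_dk_top {r : ℕ} : ∀ a ∈ Ideal.span (x '' {i | i < r}),
    ∃ v, a = dk x r v (Finset.range r) := by
  induction r with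
  | zero =>
    intro a ha
    exact ⟨0, by simpa using ha⟩
  | succ r ih =>
    intro a ha
    have : x '' {i | i < r + 1} = insert (x r) (x '' {i | i < r}) := by
      rw [← Set.image_insert_eq]
      congr 1
      ext i
      simp only [Set.mem_ofPred_eq, Set.mem_insert_iff]
      omega
    rw [this, Ideal.span, Submodule.mem_span_insert] at ha
    obtain ⟨c, z, hz, rfl⟩ := ha
    obtain ⟨v, rfl⟩ := ih z hz
    refine ⟨fun T => if r ∈ T then -v (T.erase r) else c, ?_⟩
    have hr : r ∈ Finset.range (r + 1) := by simp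
    have he : (Finset.range (r + 1)).erase r = Finset.range r := by
      rw [Finset.range_add_one, erase_insert (by simp)]
    rw [dk_succ_mem x _ hr, he, if_neg (by simp)]
    have : dk x r (fun T' => if r ∈ insert r T' then -v ((insert r T').erase r) else c)
        (Finset.range r) = dk x r (-v) (Finset.range r) := by
      refine dk_congr x fun T' h1 _ => ?_
      rw [if_pos (mem_insert_self _ _), erase_insert fun hr => by simpa using h1 hr]
      rfl
    rw [this, map_neg, Pi.neg_apply, smul_eq_mul]
    ring

lemma dk_top_mem {r : ℕ} : ∀ u : Finset ℕ → S,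
    dk x r u (Finset.range r) ∈ Ideal.span (x '' {i | i < r}) := by
  induction r with
  | zero => intro u; simp [dk_zero_apply]
  | succ r ih =>
    intro u
    rw [dk_succ_mem x u (by simp)]
    refine Ideal.sub_mem _ (Ideal.mul_mem_right _ _ (Ideal.subset_span ⟨r, by simp, rfl⟩)) ?_
    rw [Finset.range_add_one, erase_insert (by simp)]
    exact Ideal.span_mono (Set.image_mono fun i (hi : i < r) => Nat.lt_succ_of_lt hi) (ih _)

/-- Exactness below the top degree when every scalar is regular modulo the previous ones. -/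
lemma dk_exact {r : ℕ}
    (hreg : ∀ i < r, ∀ a, x i * a ∈ Ideal.span (x '' {j | j < i}) →
      a ∈ Ideal.span (x '' {j | j < i})) :
    ∀ p < r, ∀ u : Finset ℕ → S,
      (∀ T ⊆ Finset.range r, T.card = p + 1 → dk x r u T = 0) →
      ∃ v, ∀ T ⊆ Finset.range r, T.card = p → u T = dk x r v T := by
  induction r with
  | zero => intro p hp; omega
  | succ r ih =>
    intro p hp u hu
    have ih' := ih fun i hi => hreg i (Nat.lt_succ_of_lt hi)
    have hsub : ∀ {T}, T ⊆ Finset.range r → r ∉ T ∧ T ⊆ Finset.range (r + 1) := fun {T} h =>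
      ⟨fun hr => by simpa using h hr, h.trans (Finset.range_mono (Nat.le_succ r))⟩
    -- the part avoiding the last index is a boundary
    obtain ⟨v, hv⟩ : ∃ v, ∀ T ⊆ Finset.range r, T.card = p → u T = dk x r v T := by
      rcases Nat.lt_or_ge p r with h | h
      · refine ih' p h u fun T h1 h2 => ?_
        rw [← dk_succ_notMem x u (hsub h1).1]
        exact hu T (hsub h1).2 h2
      · obtain rfl : p = r := by omega
        have h := hu (Finset.range (p + 1)) subset_rfl (card_range _)
        rw [dk_succ_mem x u (by simp), Finset.range_add_one, erase_insert (by simp), sub_eq_zero] at h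
        obtain ⟨v, hv⟩ := exists_dk_top x (u (Finset.range p))
          (hreg p (Nat.lt_succ_self _) _ (h ▸ dk_top_mem x _))
        exact ⟨v, fun T h1 h2 => by
          rw [Finset.eq_of_subset_of_card_le h1 (by simp [h2])]; exact hv⟩
    rcases Nat.eq_zero_or_pos p with rfl | hp0
    · refine ⟨0, fun T h1 h2 => ?_⟩
      rw [card_eq_zero.1 h2, map_zero, Pi.zero_apply, hv ∅ (empty_subset _) card_empty, dk_empty]
    obtain ⟨q, rfl⟩ : ∃ q, p = q + 1 := ⟨p - 1, by omega⟩
    set u1 : Finset ℕ → S := fun T => u (insert r T)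
    obtain ⟨w, hw⟩ := ih' q (by omega) (u1 - x r • v) fun T h1 h2 => by
      have h := hu (insert r T) (insert_subset (by simp) (hsub h1).2)
        (by rw [card_insert_of_notMem (hsub h1).1, h2])
      rw [dk_succ_mem x u (mem_insert_self _ _), erase_insert (hsub h1).1, sub_eq_zero, hv T h1 h2] at h
      rw [map_sub, map_smul, Pi.sub_apply, Pi.smul_apply, smul_eq_mul, h, sub_self]
    refine ⟨fun T => if r ∈ T then -w (T.erase r) else v T, fun T h1 h2 => ?_⟩
    by_cases h : r ∈ T
    · have hT : T.erase r ⊆ Finset.range r := fun i hi => by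
        have hi' := mem_range.1 (h1 (mem_of_mem_erase hi))
        have := (mem_erase.1 hi).1
        exact mem_range.2 (by omega)
      have hc : (T.erase r).card = q := by have := card_erase_add_one h; omega
      rw [dk_succ_mem x _ h, if_neg (notMem_erase _ _)]
      have : dk x r (fun T' => if r ∈ insert r T' then -w ((insert r T').erase r) else v (insert r T'))
          (T.erase r) = dk x r (-w) (T.erase r) := by
        refine dk_congr x fun T' h1' _ => ?_
        rw [if_pos (mem_insert_self _ _), erase_insert fun hr => (mem_erase.1 (h1' hr)).1 rfl]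
        rfl
      have hw' := hw _ hT hc
      simp only [Pi.sub_apply, u1, Pi.smul_apply, smul_eq_mul, insert_erase h] at hw'
      rw [this, map_neg, Pi.neg_apply, ← hw']
      ring
    · have hT : T ⊆ Finset.range r := fun i hi => by
        have := mem_range.1 (h1 hi)
        have : i ≠ r := fun e => h (e ▸ hi)
        exact mem_range.2 (by omega)
      rw [dk_succ_notMem x _ h, hv T hT h2]
      refine dk_congr x fun T' h1' _ => ?_
      rw [if_neg fun hr => h (h1' hr)]

end Differential

variable {K : Type*} [Field K] {n : ℕ}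

/-- The variables, indexed by natural numbers. -/
noncomputable def xv (K : Type*) [Field K] (n : ℕ) (i : ℕ) : MvPolynomial (Fin n) K :=
  if h : i < n then X ⟨i, h⟩ else 0

lemma xv_of_lt {i : ℕ} (h : i < n) : xv K n i = X ⟨i, h⟩ := dif_pos h

lemma xv_isHomogeneous (i : ℕ) : (xv K n i).IsHomogeneous 1 := by
  unfold xv
  split
  · exact isHomogeneous_X _ _
  · exact isHomogeneous_zero _ _ _

lemma homogeneousComponent_mul {m : ℕ} {g : MvPolynomial (Fin n) K} (hg : g.IsHomogeneous m)
    (a : MvPolynomial (Fin n) K) (i : ℕ) :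
    homogeneousComponent (m + i) (g * a) = g * homogeneousComponent i a := by
  conv_lhs => rw [← sum_homogeneousComponent a, Finset.mul_sum, map_sum]
  have h : ∀ j, homogeneousComponent (m + i) (g * homogeneousComponent j a) =
      if j = i then g * homogeneousComponent i a else 0 := fun j => by
    rw [homogeneousComponent_of_mem (hg.mul (homogeneousComponent_isHomogeneous j a))]
    by_cases hji : j = i
    · subst hji; simp
    · rw [if_neg hji, if_neg (by omega)]
  rw [Finset.sum_congr rfl fun j _ => h j, Finset.sum_ite_eq']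
  split_ifs with h'
  · rfl
  · rw [homogeneousComponent_eq_zero i a (by simpa using h'), mul_zero]

lemma homogeneousComponent_mul_lt {m : ℕ} {g : MvPolynomial (Fin n) K} (hg : g.IsHomogeneous m)
    (a : MvPolynomial (Fin n) K) {i : ℕ} (hi : i < m) :
    homogeneousComponent i (g * a) = 0 := by
  rw [← sum_homogeneousComponent a, Finset.mul_sum, map_sum]
  refine Finset.sum_eq_zero fun j _ => ?_
  rw [homogeneousComponent_of_mem (hg.mul (homogeneousComponent_isHomogeneous j a)),
    if_neg (by omega)]

/-- An ideal closed under taking homogeneous components. -/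
def Closed (J : Ideal (MvPolynomial (Fin n) K)) : Prop :=
  ∀ a ∈ J, ∀ i, homogeneousComponent i a ∈ J

/-- Vanishing of Koszul cohomology in cochain degree `p` and polynomial degree `j`. -/
def KExact (J : Ideal (MvPolynomial (Fin n) K)) (p j : ℕ) : Prop :=
  ∀ u : Finset ℕ → MvPolynomial (Fin n) K, (∀ T, (u T).IsHomogeneous j) →
    (∀ T ⊆ Finset.range n, T.card = p + 1 → dk (xv K n) n u T ∈ J) →
    ∃ v, ∀ T ⊆ Finset.range n, T.card = p → u T - dk (xv K n) n v T ∈ J

lemma dk_component (r : ℕ) (u : Finset ℕ → MvPolynomial (Fin n) K) (T : Finset ℕ) (i : ℕ) :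
    homogeneousComponent (i + 1) (dk (xv K n) r u T) =
      dk (xv K n) r (fun T' => homogeneousComponent i (u T')) T := by
  induction r generalizing u T with
  | zero => simp [dk_zero_apply]
  | succ r ih =>
    by_cases h : r ∈ T
    · rw [dk_succ_mem _ _ h, dk_succ_mem _ _ h, map_sub, ih, add_comm i 1,
        homogeneousComponent_mul (xv_isHomogeneous r)]
    · rw [dk_succ_notMem _ _ h, dk_succ_notMem _ _ h, ih]

lemma dk_isHomogeneous {r j : ℕ} {u : Finset ℕ → MvPolynomial (Fin n) K}
    (hu : ∀ T, (u T).IsHomogeneous j) (T : Finset ℕ) :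
    (dk (xv K n) r u T).IsHomogeneous (j + 1) :=
  dk_induction (xv K n) (fun a => a.IsHomogeneous (j + 1)) (isHomogeneous_zero _ _ _)
    (fun _ _ ha hb => ha.sub hb) fun i T' _ _ => by
      rw [add_comm j 1]
      exact (xv_isHomogeneous i).mul (hu T')

lemma regular_xv : ∀ i < n, ∀ a : MvPolynomial (Fin n) K,
    xv K n i * a ∈ Ideal.span (xv K n '' {j | j < i}) →
      a ∈ Ideal.span (xv K n '' {j | j < i}) := by
  intro i hi a h
  have himg : xv K n '' {j | j < i} = X '' {j : Fin n | (j : ℕ) < i} := by
    ext f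
    constructor
    · rintro ⟨j, hj, rfl⟩
      exact ⟨⟨j, lt_trans hj hi⟩, hj, (xv_of_lt _).symm⟩
    · rintro ⟨j, hj, rfl⟩
      exact ⟨j, hj, xv_of_lt j.2⟩
  rw [himg, mem_ideal_span_X_image] at h ⊢
  intro m hm
  obtain ⟨k, hk, hk0⟩ := h (Finsupp.single ⟨i, hi⟩ 1 + m) (by
    rw [xv_of_lt hi, mem_support_iff, coeff_X_mul]
    exact mem_support_iff.1 hm)
  refine ⟨k, hk, ?_⟩
  have : (⟨i, hi⟩ : Fin n) ≠ k := fun e => by subst e; exact lt_irrefl _ (show i < i from hk)
  simpa [Finsupp.single_apply, this] using hk0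

lemma kexact_bot {p : ℕ} (hp : p < n) (j : ℕ) :
    KExact (⊥ : Ideal (MvPolynomial (Fin n) K)) p j := by
  intro u _ hu
  obtain ⟨v, hv⟩ := dk_exact (xv K n) regular_xv p hp u fun T h1 h2 => by simpa using hu T h1 h2
  exact ⟨v, fun T h1 h2 => by simp [hv T h1 h2]⟩

/-- Exactness passes to the quotient by a regular quadric. -/
lemma KExact.succ {J : Ideal (MvPolynomial (Fin n) K)} {f : MvPolynomial (Fin n) K}
    (hJ : Closed J) (hf : f.IsHomogeneous 2) (hreg : ∀ a, f * a ∈ J → a ∈ J) {p j : ℕ}
    (h0 : KExact J p j) (h1 : 1 ≤ j → KExact J (p + 1) (j - 1)) :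
    KExact (J ⊔ Ideal.span {f}) p j := by
  intro u hu hdu
  have hcomp : ∀ T ⊆ Finset.range n, T.card = p + 1 → ∃ w,
      w.IsHomogeneous (j - 1) ∧ dk (xv K n) n u T - f * w ∈ J ∧ (j = 0 → w = 0) := by
    intro T hT hc
    obtain ⟨a, ha, b, hb, hab⟩ := Submodule.mem_sup.1 (hdu T hT hc)
    obtain ⟨w, rfl⟩ := Ideal.mem_span_singleton'.1 hb
    have hd := dk_isHomogeneous (r := n) hu T
    have he := congrArg (homogeneousComponent (j + 1)) hab
    rw [map_add, homogeneousComponent_eq_self hd, mul_comm w f] at he
    rcases Nat.eq_zero_or_pos j with rfl | hj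
    · rw [homogeneousComponent_mul_lt hf w (by omega : 0 + 1 < 2), add_zero] at he
      exact ⟨0, isHomogeneous_zero _ _ _, by rw [mul_zero, sub_zero, ← he]; exact hJ a ha _, fun _ => rfl⟩
    · refine ⟨homogeneousComponent (j - 1) w, homogeneousComponent_isHomogeneous _ _, ?_, by omega⟩
      rw [show j + 1 = 2 + (j - 1) by omega, homogeneousComponent_mul hf] at he
      rw [← he, add_sub_cancel_right]
      exact hJ a ha _
  choose! w hw using hcomp
  classical
  set w' : Finset ℕ → MvPolynomial (Fin n) K :=
    fun T => if T ⊆ Finset.range n ∧ T.card = p + 1 then w T else 0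
  have hw' : ∀ T ⊆ Finset.range n, T.card = p + 1 → dk (xv K n) n u T - f * w' T ∈ J := by
    intro T h1 h2
    simp only [w', if_pos (And.intro h1 h2)]
    exact (hw T h1 h2).2.1
  rcases Nat.eq_zero_or_pos j with rfl | hj
  · obtain ⟨v, hv⟩ := h0 u hu fun T h1 h2 => by
      have := (hw T h1 h2)
      simpa [this.2.2 rfl] using this.2.1
    exact ⟨v, fun T a b => Submodule.mem_sup_left (hv T a b)⟩
  have hwh : ∀ T, (w' T).IsHomogeneous (j - 1) := fun T => by
    simp only [w']
    split
    · next h => exact (hw T h.1 h.2).1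
    · exact isHomogeneous_zero _ _ _
  obtain ⟨v, hv⟩ := h1 hj w' hwh fun T h1 h2 => by
    apply hreg
    have := dk_mem (xv K n) (r := n) (u := dk (xv K n) n u - f • w') (T := T) J fun T' h1' h2' =>
      hw' T' (h1'.trans h1) (by omega)
    rw [map_sub, map_smul, Pi.sub_apply, dk_dk, zero_sub, neg_mem_iff] at this
    exact this
  set v' : Finset ℕ → MvPolynomial (Fin n) K :=
    fun T => if 2 ≤ j then homogeneousComponent (j - 2) (v T) else 0
  have hv' : ∀ T ⊆ Finset.range n, T.card = p + 1 → w' T - dk (xv K n) n v' T ∈ J := by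
    intro T h1 h2
    have h := hJ _ (hv T h1 h2) (j - 1)
    rw [map_sub, homogeneousComponent_eq_self (hwh T)] at h
    by_cases hj2 : 2 ≤ j
    · rw [show j - 1 = j - 2 + 1 by omega, dk_component] at h
      simpa only [v', if_pos hj2] using h
    · obtain rfl : j = 1 := by omega
      have hz : dk (xv K n) n v' T = 0 := by
        rw [show v' = 0 by funext T'; simp [v'], map_zero]; rfl
      rw [hz, sub_zero]
      have h0' : homogeneousComponent (1 - 1) (dk (xv K n) n v T) = 0 :=
        dk_induction (xv K n) (fun a => homogeneousComponent (1 - 1) a = 0) (map_zero _)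
          (fun a b ha hb => by rw [map_sub, ha, hb, sub_zero])
          fun i T' _ _ => homogeneousComponent_mul_lt (xv_isHomogeneous i) _ (by omega)
      rwa [h0', sub_zero] at h
  have hh : ∀ T, ((u - f • v') T).IsHomogeneous j := fun T => by
    refine (hu T).sub ?_
    simp only [Pi.smul_apply, smul_eq_mul, v']
    split
    · next h =>
      have := hf.mul (homogeneousComponent_isHomogeneous (j - 2) (v T))
      rwa [show 2 + (j - 2) = j by omega] at this
    · rw [mul_zero]; exact isHomogeneous_zero _ _ _
  obtain ⟨z, hz⟩ := h0 (u - f • v') hh fun T h1 h2 => by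
    rw [map_sub, map_smul, Pi.sub_apply, Pi.smul_apply, smul_eq_mul]
    have := J.add_mem (hw' T h1 h2) (J.mul_mem_left f (hv' T h1 h2))
    convert this using 1
    ring
  refine ⟨z, fun T h1 h2 => ?_⟩
  have := hz T h1 h2
  rw [Pi.sub_apply, Pi.smul_apply, smul_eq_mul] at this
  have h' := Submodule.add_mem (J ⊔ Ideal.span {f}) (Submodule.mem_sup_left this)
    (Submodule.mem_sup_right (Ideal.mul_mem_right (v' T) _ (Ideal.mem_span_singleton_self f)))
  convert h' using 1
  ring

end Vale.Agent.P200.SmallH2
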