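import Vale.Agent.P200.SmallH2.Growth
import Mathlib.RingTheory.GradedAlgebra.Radical
import Mathlib.FieldTheory.IsAlgClosed.AlgebraicClosure

/-!
Descent to an arbitrary field and the monomial ideal with the same Hilbert function.
-/

namespace Vale.Agent.P200.SmallH2

open MvPolynomial Module

variable {K : Type*} [Field K] {n : ℕ}

attribute [local instance] MvPolynomial.gradedAlgebra

local instance finiteHom4 (d : ℕ) : Module.Finite K (homogeneousSubmodule (Fin n) K d) :=
  Module.Finite.iff_fg.2 (homogeneousSubmodule_fg (Fin n) K d)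

lemma le_ker_constantCoeff_of_isHomogeneous {P : Ideal (MvPolynomial (Fin n) K)}
    (hP : P.IsHomogeneous (homogeneousSubmodule (Fin n) K)) (hne : P ≠ ⊤) :
    P ≤ RingHom.ker (constantCoeff (σ := Fin n) (R := K)) := by
  intro a ha
  by_contra hc
  apply hne
  have h0 := homogeneousComponent_mem_of_mem hP ha 0
  rw [homogeneousComponent_zero] at h0
  have hu : IsUnit (C (coeff 0 a) : MvPolynomial (Fin n) K) :=
    (isUnit_iff_ne_zero.2 (show coeff 0 a ≠ 0 from hc)).map C
  exact Ideal.eq_top_of_isUnit_mem _ h0 hu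

/-- A regular sequence of `n` quadrics contains a power of every variable in its ideal. -/
lemma X_mem_radical_of_regular {f : Fin n → MvPolynomial (Fin n) K}
    (hf : ∀ i, f i ∈ homogeneousSubmodule (Fin n) K 2)
    (hreg : RingTheory.Sequence.IsWeaklyRegular (MvPolynomial (Fin n) K) (List.ofFn f)) (i : Fin n) :
    (X i : MvPolynomial (Fin n) K) ∈ (Ideal.span (Set.range f)).radical := by
  classical
  rw [← Ideal.sInf_minimalPrimes, Submodule.mem_sInf]
  intro P' hP
  obtain ⟨P, rfl⟩ : ∃ P : Ideal (MvPolynomial (Fin n) K), P = P' := ⟨P', rfl⟩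
  haveI := hP.1.1
  set 𝒜 := homogeneousSubmodule (Fin n) K with h𝒜
  have hhom : (Ideal.span (Set.range f)).IsHomogeneous 𝒜 :=
    Ideal.homogeneous_span 𝒜 _ (by rintro _ ⟨k, rfl⟩; exact ⟨2, hf k⟩)
  have hcore_le : (P.homogeneousCore 𝒜).toIdeal ≤ P := Ideal.toIdeal_homogeneousCore_le 𝒜 P
  have hspan : Ideal.span (Set.range f) ≤ (P.homogeneousCore 𝒜).toIdeal := by
    refine Ideal.span_le.2 ?_
    rintro _ ⟨k, rfl⟩
    exact Ideal.mem_homogeneousCore_of_homogeneous_of_mem ⟨2, hf k⟩
      (hP.1.2 (Ideal.subset_span ⟨k, rfl⟩))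
  have hcore : P ≤ (P.homogeneousCore 𝒜).toIdeal :=
    hP.2 ⟨hP.1.1.homogeneousCore, hspan⟩ hcore_le
  have hPh : P.IsHomogeneous 𝒜 := by
    rw [le_antisymm hcore hcore_le]
    exact (P.homogeneousCore 𝒜).isHomogeneous
  set m := RingHom.ker (constantCoeff (σ := Fin n) (R := K)) with hm
  haveI : m.IsPrime := RingHom.ker_isPrime _
  have hPm : P ≤ m := le_ker_constantCoeff_of_isHomogeneous hPh hP.1.1.ne_top
  have hXm : (X i : MvPolynomial (Fin n) K) ∈ m := by simp [hm]
  by_contra hX
  have hlt : P < m := lt_of_le_of_ne hPm fun e => hX (e ▸ hXm)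
  have h1 : (n : ℕ∞) ≤ P.height :=
    le_height_of_forall_mem hreg n le_rfl P inferInstance fun j _ => hP.1.2 (Ideal.subset_span ⟨j, rfl⟩)
  have hmspan : m = Ideal.span (Set.range (X : Fin n → MvPolynomial (Fin n) K)) := by
    refine le_antisymm (fun a ha => mem_span_X_of_constantCoeff ha) (Ideal.span_le.2 ?_)
    rintro _ ⟨j, rfl⟩
    simp [hm]
  have hmin : m ∈ (Ideal.span (Set.range (X : Fin n → MvPolynomial (Fin n) K))).minimalPrimes :=
    ⟨⟨inferInstance, hmspan.ge⟩, fun q hq _ => hmspan.trans_le hq.2⟩
  have h2 := Ideal.height_le_card_of_mem_minimalPrimes_span (Set.finite_range _) hmin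
  have h3 : (Set.range (X : Fin n → MvPolynomial (Fin n) K)).ncard ≤ n := by
    rw [← Set.image_univ]
    exact (Set.ncard_image_le Set.finite_univ).trans (by simp)
  have h4 : P.height + 1 ≤ (n : ℕ∞) :=
    (Ideal.height_add_one_le_of_lt_of_isPrime hlt).trans (h2.trans (Nat.cast_le.2 h3))
  have h5 : ((n + 1 : ℕ) : ℕ∞) ≤ n := by
    push_cast
    exact (add_le_add h1 le_rfl).trans h4
  have := Nat.cast_le.1 h5
  omega

section BaseChange

variable (L : Type*) [Field L] [Algebra K L]

/-- The span of the image of a space of polynomials over a larger field. -/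
noncomputable def extend (W : Submodule K (MvPolynomial (Fin n) K)) : Submodule L (MvPolynomial (Fin n) L) :=
  Submodule.span L (MvPolynomial.map (algebraMap K L) '' W)

lemma extend_mono {W W' : Submodule K (MvPolynomial (Fin n) K)} (h : W ≤ W') :
    extend L W ≤ extend L W' := Submodule.span_mono (Set.image_mono h)

lemma map_smul_eq (c : K) (x : MvPolynomial (Fin n) K) :
    MvPolynomial.map (algebraMap K L) (c • x) = algebraMap K L c • MvPolynomial.map (algebraMap K L) x := by
  rw [smul_eq_C_mul, smul_eq_C_mul, map_mul, map_C]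

lemma finrank_extend_le (W : Submodule K (MvPolynomial (Fin n) K)) [Module.Finite K W] :
    finrank L (extend L W) ≤ finrank K W := by
  classical
  let b := finBasis K W
  let v : Fin (finrank K W) → MvPolynomial (Fin n) L :=
    fun i => MvPolynomial.map (algebraMap K L) (b i)
  haveI := FiniteDimensional.span_of_finite L (Set.finite_range v)
  have hle : extend L W ≤ Submodule.span L (Set.range v) := by
    refine Submodule.span_le.2 ?_
    rintro _ ⟨x, hx, rfl⟩
    have e := congrArg (fun w : W => MvPolynomial.map (algebraMap K L) (w : MvPolynomial (Fin n) K))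
      (b.sum_repr ⟨x, hx⟩)
    simp only [Submodule.coe_sum, Submodule.coe_smul, map_sum, map_smul_eq] at e
    show MvPolynomial.map (algebraMap K L) x ∈ _
    rw [← e]
    exact Submodule.sum_mem _ fun i _ => Submodule.smul_mem _ _ (Submodule.subset_span ⟨i, rfl⟩)
  refine (Submodule.finrank_mono hle).trans ((finrank_range_le_card v).trans ?_)
  simp

lemma extend_homogeneous (d : ℕ) :
    extend L (homogeneousSubmodule (Fin n) K d) = homogeneousSubmodule (Fin n) L d := by
  refine le_antisymm (Submodule.span_le.2 ?_) fun a ha => ?_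
  · rintro _ ⟨x, hx, rfl⟩
    exact (hx : x.IsHomogeneous d).map _
  · rw [as_sum a]
    refine Submodule.sum_mem _ fun s hs => ?_
    have h1 : monomial s (coeff s a) = coeff s a • MvPolynomial.map (algebraMap K L) (monomial s 1) := by
      rw [map_monomial, map_one, smul_monomial, smul_eq_mul, mul_one]
    rw [h1]
    refine Submodule.smul_mem _ _ (Submodule.subset_span ⟨_, ?_, rfl⟩)
    refine isHomogeneous_monomial _ ?_
    by_contra hne
    exact mem_support_iff.1 hs ((ha : a.IsHomogeneous d).coeff_eq_zero hne)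

/-- Extension of scalars of a graded family. -/
noncomputable def GI.baseChange (Q : GI K n) : GI L n where
  piece d := extend L (Q.piece d)
  le d := (extend_mono L (Q.le d)).trans (extend_homogeneous L d).le
  mul_mem := fun {d v x} hv hx => by
    rw [← extend_homogeneous (K := K) L] at hv
    refine Submodule.span_induction (p := fun v _ => v * x ∈ extend L (Q.piece (d + 1))) ?_ (by simp)
      (fun a b _ _ ha hb => by rw [add_mul]; exact Submodule.add_mem _ ha hb)
      (fun c a _ ha => by rw [smul_mul_assoc]; exact Submodule.smul_mem _ c ha) hv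
    rintro _ ⟨u, hu, rfl⟩
    refine Submodule.span_induction
      (p := fun x _ => MvPolynomial.map (algebraMap K L) u * x ∈ extend L (Q.piece (d + 1))) ?_ (by simp)
      (fun a b _ _ ha hb => by rw [mul_add]; exact Submodule.add_mem _ ha hb)
      (fun c a _ ha => by rw [mul_smul_comm]; exact Submodule.smul_mem _ c ha) hx
    rintro _ ⟨y, hy, rfl⟩
    rw [← map_mul]
    exact Submodule.subset_span ⟨_, Q.mul_mem hu hy, rfl⟩

lemma GI.hf_baseChange (Q : GI K n) (d : ℕ) : (Q.baseChange L).hf d = Q.hf d := by
  obtain ⟨W, hW⟩ := exists_isCompl (Q.piece d)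
  set C := W ⊓ homogeneousSubmodule (Fin n) K d
  haveI : Module.Finite K C := Submodule.finiteDimensional_of_le inf_le_right
  have hsup : Q.piece d ⊔ C = homogeneousSubmodule (Fin n) K d := by
    rw [← sup_inf_assoc_of_le W (Q.le d), hW.sup_eq_top, top_inf_eq]
  have hinf : Q.piece d ⊓ C = ⊥ := (hW.disjoint.mono_right inf_le_left).eq_bot
  have h1 := Submodule.finrank_sup_add_finrank_inf_eq (Q.piece d) C
  rw [hsup, hinf, finrank_bot, add_zero] at h1
  have h2 := finrank_extend_le L (Q.piece d)
  have h3 := finrank_extend_le L C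
  have hsupL : homogeneousSubmodule (Fin n) L d ≤ extend L (Q.piece d) ⊔ extend L C := by
    rw [← extend_homogeneous (K := K) L d, ← hsup]
    refine Submodule.span_le.2 ?_
    rintro _ ⟨x, hx, rfl⟩
    obtain ⟨a, ha, b, hb, rfl⟩ := Submodule.mem_sup.1 hx
    rw [map_add]
    exact Submodule.add_mem_sup (Submodule.subset_span ⟨a, ha, rfl⟩) (Submodule.subset_span ⟨b, hb, rfl⟩)
  haveI : Module.Finite L (extend L (Q.piece d)) :=
    Submodule.finiteDimensional_of_le ((Q.baseChange L).le d)
  haveI : Module.Finite L (extend L C) :=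
    Submodule.finiteDimensional_of_le ((extend_mono L inf_le_right).trans (extend_homogeneous L d).le)
  have h4 := Submodule.finrank_mono hsupL
  have h5 := Submodule.finrank_sup_add_finrank_inf_eq (extend L (Q.piece d)) (extend L C)
  have h6 : finrank L (homogeneousSubmodule (Fin n) L d) = finrank K (homogeneousSubmodule (Fin n) K d) := by
    rw [finrank_homogeneous, finrank_homogeneous]
  have h7 : (Q.baseChange L).hf d + finrank L (extend L (Q.piece d)) =
      finrank L (homogeneousSubmodule (Fin n) L d) := (Q.baseChange L).hf_add d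
  have h8 := Q.hf_add d
  have h9 : finrank L (extend L (Q.piece d)) ≤ finrank L (homogeneousSubmodule (Fin n) L d) :=
    Submodule.finrank_mono ((Q.baseChange L).le d)
  omega

end BaseChange

/-- The growth bound over an arbitrary field. -/
theorem GI.growth_of_regular (Q : GI K n) {f : Fin n → MvPolynomial (Fin n) K}
    (hf : ∀ i, f i ∈ Q.piece 2)
    (hreg : RingTheory.Sequence.IsWeaklyRegular (MvPolynomial (Fin n) K) (List.ofFn f))
    (h10 : Q.hf 2 ≤ 10) : Q.Growth := by
  set L := AlgebraicClosure K
  have hNZ : (Q.baseChange L).NZ := by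
    intro p hp
    funext i
    obtain ⟨N, hN⟩ := X_mem_radical_of_regular (fun j => Q.le 2 (hf j)) hreg i
    have hker : Ideal.span (Set.range f) ≤ RingHom.ker (eval₂Hom (algebraMap K L) p) := by
      refine Ideal.span_le.2 ?_
      rintro _ ⟨j, rfl⟩
      have := hp _ (Submodule.subset_span ⟨f j, hf j, rfl⟩)
      rw [eval_map] at this
      exact this
    have := hker hN
    rw [RingHom.mem_ker, map_pow, coe_eval₂Hom, eval₂_X] at this
    exact eq_zero_of_pow_eq_zero this
  intro d hd
  have := GI.growth _ n (Q.baseChange L) hNZ rfl (by rw [GI.hf_baseChange]; exact h10) d hd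
  rwa [GI.hf_baseChange, GI.hf_baseChange] at this

lemma GI.hf_zero_le (Q : GI K n) : Q.hf 0 ≤ 1 := by
  have h := Q.hf_add 0
  rw [finrank_homogeneous, Nat.choose_zero_right] at h
  omega

/-- A simplicial complex with the given Hilbert function as face numbers. -/
lemma exists_complex (Q : GI K n) (hG : Q.Growth) :
    ∃ F : ℕ → Finset (Finset (Fin n)), (∀ d, ((F d : Finset (Finset (Fin n))) : Set (Finset (Fin n))).Sized d) ∧
      (∀ d, (F d).card = Q.hf d) ∧ ∀ d, Finset.shadow (F (d + 1)) ⊆ F d := by
  classical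
  have hb : ∀ d, Q.hf d ≤ n.choose d := by
    intro d
    induction d with
    | zero => simpa using Q.hf_zero_le
    | succ d ih =>
      rcases Nat.eq_zero_or_pos d with rfl | hd
      · have h := Q.hf_add 1
        rw [finrank_homogeneous_one] at h
        simp only [zero_add, Nat.choose_one_right]
        omega
      · obtain ⟨B, hB1, -, hB3⟩ := (hG d hd).in_fin hd ih
        exact hB3.trans (by simpa using hB1.card_le)
  choose F hF hFc using fun d => exists_isInitSeg n d (Q.hf d) (hb d)
  refine ⟨F, fun d => (hF d).1, hFc, fun d => ?_⟩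
  have hsh : (Finset.shadow (F (d + 1))).card ≤ Q.hf d := by
    rcases Nat.eq_zero_or_pos d with rfl | hd
    · rcases Nat.eq_zero_or_pos (Q.hf 0) with h0 | h0
      · have h1 := Q.hf_eq_zero_succ h0
        have : F (0 + 1) = ∅ := Finset.card_eq_zero.1 (by rw [hFc]; exact h1)
        simp [this]
      · have : Finset.shadow (F (0 + 1)) ⊆ {∅} := fun s hs => by
          have := ((hF (0 + 1)).1.shadow) hs
          simpa using this
        exact (Finset.card_le_card this).trans (by rw [Finset.card_singleton]; omega)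
    · obtain ⟨B, hB1, hB2, hB3⟩ := (hG d hd).in_fin hd (hb d)
      exact (Finset.kruskal_katona hB1 (by rw [hFc]; exact hB3) (hF (d + 1))).trans hB2
  have hs : Finset.Colex.IsInitSeg (Finset.shadow (F (d + 1))) d := (hF (d + 1)).shadow
  rcases hs.total (hF d) with h | h
  · exact h
  · exact (Finset.eq_of_subset_of_card_le h (by rw [hFc]; exact hsh)).ge

/-- A monomial ideal containing all squares, with the same Hilbert function. -/
theorem exists_monomial_ideal (Q : GI K n)
    (hc : ∃ F : ℕ → Finset (Finset (Fin n)),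
      (∀ d, ((F d : Finset (Finset (Fin n))) : Set (Finset (Fin n))).Sized d) ∧
      (∀ d, (F d).card = Q.hf d) ∧ ∀ d, Finset.shadow (F (d + 1)) ⊆ F d) :
    ∃ J : Ideal (MvPolynomial (Fin n) K),
      (∃ G : Set (Fin n →₀ ℕ), J = Ideal.span ((fun s => monomial s (1 : K)) '' G)) ∧
      (∀ i, X i ^ 2 ∈ J) ∧
      ∀ d, finrank K ↑(homogeneousSubmodule (Fin n) K d ⊓ J.restrictScalars K) =
        finrank K (Q.piece d) := by
  classical
  obtain ⟨F, hF1, hF2, hF3⟩ := hc
  let Std : (Fin n →₀ ℕ) → Prop := fun s => (∀ i, s i ≤ 1) ∧ s.support ∈ F s.support.card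
  set G : Set (Fin n →₀ ℕ) := {s | ¬ Std s}
  have hdown : ∀ U T : Finset (Fin n), T ⊆ U → U ∈ F U.card → T ∈ F T.card := by
    intro U
    induction U using Finset.strongInduction with
    | _ U ih =>
    intro T hT hU
    rcases hT.eq_or_ssubset with rfl | hlt
    · exact hU
    · obtain ⟨a, haU, haT⟩ := Finset.exists_of_ssubset hlt
      refine ih (U.erase a) (Finset.erase_ssubset haU) T (fun x hx => Finset.mem_erase.2
        ⟨fun e => haT (e ▸ hx), hT hx⟩) ?_
      have hc := Finset.card_erase_add_one haU
      rw [← hc] at hU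
      exact hF3 _ (Finset.erase_mem_shadow hU haU)
  have hStd : ∀ s t : Fin n →₀ ℕ, t ≤ s → Std s → Std t := fun s t hts hs =>
    ⟨fun i => (hts i).trans (hs.1 i), hdown _ _ (Finsupp.support_mono hts) hs.2⟩
  set J := Ideal.span ((fun s => monomial s (1 : K)) '' G)
  refine ⟨J, ⟨G, rfl⟩, fun i => ?_, fun d => ?_⟩
  · rw [X_pow_eq_monomial]
    refine Ideal.subset_span ⟨_, fun h => ?_, rfl⟩
    have := h.1 i
    simp at this
  set D : Set (Fin n →₀ ℕ) := {s | s.degree = d}
  have hfinD : D.Finite := by
    have : Finite {s : Fin n →₀ ℕ | s.degree = d} := Finite.of_equiv _ (Sym.equivNatSum (Fin n) d)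
    exact Set.toFinite _
  have hJ : homogeneousSubmodule (Fin n) K d ⊓ J.restrictScalars K = restrictSupport K (D ∩ G) := by
    ext a
    rw [Submodule.mem_inf, mem_restrictSupport_iff, Submodule.restrictScalars_mem]
    constructor
    · rintro ⟨ha, hJ⟩ s hs
      refine ⟨?_, fun hstd => ?_⟩
      · by_contra hne
        exact mem_support_iff.1 hs ((ha : a.IsHomogeneous d).coeff_eq_zero hne)
      · obtain ⟨t, ht, hts⟩ := mem_ideal_span_monomial_image.1 hJ s hs
        exact ht (hStd s t hts hstd)
    · intro h
      refine ⟨?_, mem_ideal_span_monomial_image.2 fun s hs => ⟨s, (h hs).2, le_rfl⟩⟩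
      rw [homogeneousSubmodule_eq_finsupp_supported]
      exact fun s hs => (h hs).1
  haveI : Fintype ↑(D ∩ G) := (hfinD.inter_of_left _).fintype
  have hrank : finrank K ↑(homogeneousSubmodule (Fin n) K d ⊓ J.restrictScalars K) = (D ∩ G).ncard := by
    rw [hJ, finrank_eq_card_basis (basisRestrictSupport K (D ∩ G)), Set.ncard_eq_toFinset_card',
      Set.toFinset_card]
  haveI : Fintype ↑D := hfinD.fintype
  have hD : finrank K (homogeneousSubmodule (Fin n) K d) = D.ncard := by
    rw [Set.ncard_eq_toFinset_card', Set.toFinset_card,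
      ← finrank_eq_card_basis (basisRestrictSupport K D), homogeneousSubmodule_eq_finsupp_supported]
    rfl
  have hstd : (D \ G).ncard = (F d).card := by
    rw [← Set.ncard_coe_finset]
    refine Set.ncard_congr (fun s _ => s.support) ?_ ?_ ?_
    · rintro s ⟨hs, hG'⟩
      simp only [G, Set.mem_ofPred_eq, not_not] at hG'
      have : s.support.card = d := by
        rw [← hs, Finsupp.degree_apply, Finset.card_eq_sum_ones]
        exact Finset.sum_congr rfl fun i hi => by
          have := hG'.1 i
          have := Finsupp.mem_support_iff.1 hi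
          omega
      rw [← this]
      exact hG'.2
    · rintro s t ⟨-, hs⟩ ⟨-, ht⟩ hst
      simp only [G, Set.mem_ofPred_eq, not_not] at hs ht
      have hst : s.support = t.support := hst
      refine Finsupp.ext fun i => ?_
      have := hs.1 i
      have := ht.1 i
      by_cases hi : i ∈ s.support
      · have := Finsupp.mem_support_iff.1 hi
        have := Finsupp.mem_support_iff.1 (hst ▸ hi)
        omega
      · rw [Finsupp.notMem_support_iff.1 hi, Finsupp.notMem_support_iff.1 (hst ▸ hi)]
    · intro T hT
      let s : Fin n →₀ ℕ := Finsupp.equivFunOnFinite.symm fun i => if i ∈ T then 1 else 0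
      have hsupp : s.support = T := by ext i; simp [s]
      refine ⟨s, ⟨?_, ?_⟩, hsupp⟩
      · show s.degree = d
        rw [Finsupp.degree_apply, hsupp, ← hF1 d hT, Finset.card_eq_sum_ones]
        exact Finset.sum_congr rfl fun i hi => by simp [s, hi]
      · simp only [G, Set.mem_ofPred_eq, not_not]
        refine ⟨fun i => by simp [s]; split <;> omega, ?_⟩
        rw [hsupp, hF1 d hT]
        exact hT
  have htot := Set.ncard_inter_add_ncard_sdiff_eq_ncard D G hfinD
  have := Q.hf_add d
  have := hF2 d
  omega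

end Vale.Agent.P200.SmallH2
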