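import Vale.Agent.P200.SmallH2.Koszul
import Vale.Agent.P200.SmallH2.Hopf
import Mathlib.RingTheory.Regular.IsSMulRegular
import Mathlib.RingTheory.Ideal.AssociatedPrime.Finiteness
import Mathlib.GroupTheory.CosetCover

/-!
A regular sequence of quadrics inside five-variable quadrics without a common zero, the
Hilbert function of the complete intersection and its socle.
-/

namespace Vale.Agent.P200.SmallH2

open MvPolynomial Module

variable {K : Type*} [Field K] {n : ℕ}

local instance finiteHom'' (d : ℕ) : Module.Finite K (homogeneousSubmodule (Fin n) K d) :=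
  Module.Finite.iff_fg.2 (homogeneousSubmodule_fg (Fin n) K d)

/-- Hilbert function of a complete intersection of `k` quadrics in `n` variables. -/
def ciDim (n : ℕ) : ℕ → ℕ → ℕ
  | 0, d => (n + d - 1).choose d
  | k + 1, d => if d < 2 then ciDim n k d else ciDim n k d - ciDim n k (d - 2)

/-- The degree `d` part of an ideal. -/
noncomputable def part (J : Ideal (MvPolynomial (Fin n) K)) (d : ℕ) :
    Submodule K (MvPolynomial (Fin n) K) :=
  homogeneousSubmodule (Fin n) K d ⊓ J.restrictScalars K

instance (J : Ideal (MvPolynomial (Fin n) K)) (d : ℕ) : Module.Finite K (part J d) :=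
  Submodule.finiteDimensional_of_le (inf_le_left : part J d ≤ homogeneousSubmodule (Fin n) K d)

lemma part_le (J : Ideal (MvPolynomial (Fin n) K)) (d : ℕ) :
    part J d ≤ homogeneousSubmodule (Fin n) K d := inf_le_left

/-- An ideal generated by quadrics of `Q` with the invariants of `k` regular quadrics. -/
structure Stage (Q : GI K n) (k : ℕ) (J : Ideal (MvPolynomial (Fin n) K)) : Prop where
  closed : Closed J
  le_span : J ≤ Ideal.span (part J 2 : Set (MvPolynomial (Fin n) K))
  le_piece : ∀ d, part J d ≤ Q.piece d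
  exact : ∀ p j, p < n → p + k < n ∨ j + p < n → KExact J p j
  dims : ∀ d, finrank K (part J d) + ciDim n k d = finrank K (homogeneousSubmodule (Fin n) K d)

lemma socle_mem {J : Ideal (MvPolynomial (Fin n) K)} {j : ℕ} (h : KExact J 0 j)
    {q : MvPolynomial (Fin n) K} (hq : q.IsHomogeneous j) (hX : ∀ i, X i * q ∈ J) : q ∈ J := by
  obtain ⟨v, hv⟩ := h (fun _ => q) (fun _ => hq) fun T _ _ =>
    dk_induction (xv K n) (· ∈ J) J.zero_mem (fun _ _ => J.sub_mem) fun i _ _ _ => by
      unfold xv
      split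
      · exact hX _
      · simp
  simpa [dk_empty] using hv ∅ (Finset.empty_subset _) Finset.card_empty

lemma stage_zero (Q : GI K n) : Stage Q 0 ⊥ := by
  refine ⟨fun a ha i => ?_, bot_le, fun d => ?_, fun p j hp _ => kexact_bot hp j, fun d => ?_⟩
  · rw [Ideal.mem_bot] at ha
    simp [ha]
  · rintro a ⟨-, ha⟩
    rw [(Ideal.mem_bot).1 ha]
    exact Submodule.zero_mem _
  · have h : part (⊥ : Ideal (MvPolynomial (Fin n) K)) d = ⊥ :=
      eq_bot_iff.2 fun a ha => (Ideal.mem_bot).1 ha.2
    rw [h, finrank_bot, zero_add, finrank_homogeneous, ciDim]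

lemma exists_regular [IsAlgClosed K] (Q : GI K n) (hQ : Q.NZ) {k : ℕ}
    {J : Ideal (MvPolynomial (Fin n) K)} (hJ : Stage Q k J) (hk : k < n) :
    ∃ f ∈ Q.piece 2, ∀ a, f * a ∈ J → a ∈ J := by
  classical
  set S := MvPolynomial (Fin n) K
  have hfin := associatedPrimes.finite S (S ⧸ J)
  let comap : Ideal S → Submodule K (Q.piece 2) :=
    fun P => (P.restrictScalars K).comap (Q.piece 2).subtype
  have htop : (⊤ : Submodule K (Q.piece 2)) ∉ hfin.toFinset.image comap := by
    intro h
    obtain ⟨P, hP, hPtop⟩ := Finset.mem_image.1 h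
    obtain ⟨hPp, x, hx⟩ := isAssociatedPrime_iff.1 (hfin.mem_toFinset.1 hP)
    obtain ⟨y, rfl⟩ := Submodule.Quotient.mk_surjective J x
    have hmem : ∀ r, r ∈ P ↔ r * y ∈ J := fun r => by
      rw [hx, Submodule.mem_colon_singleton, Submodule.mem_bot, ← Submodule.Quotient.mk_smul,
        Submodule.Quotient.mk_eq_zero, smul_eq_mul]
    have hX : ∀ i, (X i : S) ∈ P := fun i => by
      refine hPp.radical.le (Ideal.radical_mono (Ideal.span_le.2 fun q hq => ?_) (Q.X_mem_radical hQ i))
      have : (⟨q, hq⟩ : Q.piece 2) ∈ comap P := hPtop ▸ Submodule.mem_top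
      exact this
    refine hPp.ne_top ((Ideal.eq_top_iff_one P).2 ((hmem 1).2 ?_))
    rw [one_mul, ← sum_homogeneousComponent y]
    refine Submodule.sum_mem _ fun j _ => socle_mem (hJ.exact 0 j (by omega) (Or.inl (by omega)))
      (homogeneousComponent_isHomogeneous j y) fun i => ?_
    rw [← homogeneousComponent_mul (isHomogeneous_X K i) y j]
    exact hJ.closed _ ((hmem _).1 (hX i)) _
  have hcov := Subspace.biUnion_ne_univ_of_top_notMem htop
  obtain ⟨f, hf⟩ := (Set.ne_univ_iff_exists_notMem _).1 hcov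
  refine ⟨f, f.2, fun a ha => ?_⟩
  by_contra hna
  have hnr : ¬ IsSMulRegular (S ⧸ J) (f : S) := fun hr => hna (by
    have := hr.right_eq_zero_of_smul (x := Submodule.Quotient.mk a) (by
      rw [← Submodule.Quotient.mk_smul, Submodule.Quotient.mk_eq_zero]
      exact ha)
    exact (Submodule.Quotient.mk_eq_zero _).1 this)
  have : (f : S) ∈ ⋃ p ∈ associatedPrimes S (S ⧸ J), (p : Set S) := by
    rw [biUnion_associatedPrimes_eq_compl_regular]
    exact hnr
  obtain ⟨P, hP, hfP⟩ := Set.mem_iUnion₂.1 this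
  exact hf (Set.mem_iUnion₂.2 ⟨comap P, Finset.mem_image_of_mem _ (hfin.mem_toFinset.2 hP), hfP⟩)

lemma stage_succ {Q : GI K n} {k : ℕ} {J : Ideal (MvPolynomial (Fin n) K)} (hJ : Stage Q k J)
    {f : MvPolynomial (Fin n) K} (hf : f ∈ Q.piece 2) (hreg : ∀ a, f * a ∈ J → a ∈ J)
    (hf0 : f ≠ 0) : Stage Q (k + 1) (J ⊔ Ideal.span {f}) := by
  have hfh : f.IsHomogeneous 2 := Q.le 2 hf
  have hlow : ∀ d, d < 2 → part (J ⊔ Ideal.span {f}) d = part J d := by
    intro d hd
    refine le_antisymm (fun a ha => ⟨ha.1, ?_⟩) fun a ha => ⟨ha.1, Submodule.mem_sup_left ha.2⟩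
    obtain ⟨b, hb, c, hc, rfl⟩ := Submodule.mem_sup.1 ha.2
    obtain ⟨w, rfl⟩ := Ideal.mem_span_singleton'.1 hc
    have h := homogeneousComponent_eq_self (ha.1 : (b + w * f).IsHomogeneous d)
    rw [map_add, mul_comm w f, homogeneousComponent_mul_lt hfh w hd, add_zero] at h
    rw [mul_comm w f]
    exact h ▸ hJ.closed b hb d
  have hhigh : ∀ d, part (J ⊔ Ideal.span {f}) (d + 2) =
      part J (d + 2) ⊔ (homogeneousSubmodule (Fin n) K d).map (LinearMap.mulLeft K f) := by
    intro d
    refine le_antisymm (fun a ha => ?_) (sup_le (fun a ha => ⟨ha.1, Submodule.mem_sup_left ha.2⟩) ?_)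
    · obtain ⟨b, hb, c, hc, rfl⟩ := Submodule.mem_sup.1 ha.2
      obtain ⟨w, rfl⟩ := Ideal.mem_span_singleton'.1 hc
      rw [← homogeneousComponent_eq_self (ha.1 : (b + w * f).IsHomogeneous (d + 2)), map_add,
        mul_comm w f, add_comm d 2, homogeneousComponent_mul hfh]
      exact Submodule.add_mem_sup ⟨homogeneousComponent_mem _ _, hJ.closed b hb _⟩
        ⟨homogeneousComponent d w, homogeneousComponent_mem _ _, rfl⟩
    · rintro _ ⟨w, hw, rfl⟩
      exact ⟨by rw [add_comm]; exact mul_mem_homogeneous hfh hw,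
        Submodule.mem_sup_right (Ideal.mul_mem_right w _ (Ideal.mem_span_singleton_self f))⟩
  refine ⟨?_, ?_, ?_, ?_, ?_⟩
  · intro a ha i
    obtain ⟨b, hb, c, hc, rfl⟩ := Submodule.mem_sup.1 ha
    obtain ⟨w, rfl⟩ := Ideal.mem_span_singleton'.1 hc
    rw [map_add]
    refine Submodule.add_mem_sup (hJ.closed b hb i) ?_
    rw [mul_comm w f]
    by_cases hi : i < 2
    · rw [homogeneousComponent_mul_lt hfh w hi]; exact Submodule.zero_mem _
    · obtain ⟨j, rfl⟩ : ∃ j, i = 2 + j := ⟨i - 2, by omega⟩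
      rw [homogeneousComponent_mul hfh]
      exact Ideal.mul_mem_right _ _ (Ideal.mem_span_singleton_self f)
  · refine sup_le (hJ.le_span.trans (Ideal.span_mono fun a ha => ⟨ha.1, Submodule.mem_sup_left ha.2⟩)) ?_
    rw [Ideal.span_singleton_le_iff_mem]
    exact Ideal.subset_span ⟨hfh, Submodule.mem_sup_right (Ideal.mem_span_singleton_self f)⟩
  · intro d
    rcases Nat.lt_or_ge d 2 with hd | hd
    · exact (hlow d hd).le.trans (hJ.le_piece d)
    · obtain ⟨e, rfl⟩ : ∃ e, d = e + 2 := ⟨d - 2, by omega⟩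
      rw [hhigh]
      refine sup_le (hJ.le_piece _) ?_
      rintro _ ⟨w, hw, rfl⟩
      have := Q.hom_mul_mem hw hf
      rw [add_comm] at this
      simpa [mul_comm] using this
  · intro p j hp h
    refine (hJ.exact p j hp (by omega)).succ hJ.closed hfh hreg fun hj => ?_
    by_cases hp1 : p + 1 < n
    · exact hJ.exact (p + 1) (j - 1) hp1 (by omega)
    · omega
  · intro d
    rcases Nat.lt_or_ge d 2 with hd | hd
    · rw [hlow d hd, ciDim, if_pos hd]; exact hJ.dims d
    · obtain ⟨e, rfl⟩ : ∃ e, d = e + 2 := ⟨d - 2, by omega⟩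
      set M := LinearMap.mulLeft K f
      have hinj : Function.Injective M := fun x y h => mul_left_cancel₀ hf0 h
      have hinf : part J (e + 2) ⊓ (homogeneousSubmodule (Fin n) K e).map M = (part J e).map M := by
        ext a
        constructor
        · rintro ⟨ha, w, hw, rfl⟩
          exact ⟨w, ⟨hw, hreg w ha.2⟩, rfl⟩
        · rintro ⟨w, hw, rfl⟩
          exact ⟨⟨by rw [add_comm]; exact mul_mem_homogeneous hfh hw.1, J.mul_mem_left f hw.2⟩,
            w, hw.1, rfl⟩
      have e1 := (Submodule.equivMapOfInjective M hinj (homogeneousSubmodule (Fin n) K e)).finrank_eq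
      have e2 := (Submodule.equivMapOfInjective M hinj (part J e)).finrank_eq
      have e3 := Submodule.finrank_sup_add_finrank_inf_eq (part J (e + 2))
        ((homogeneousSubmodule (Fin n) K e).map M)
      rw [← hhigh e, hinf, ← e1, ← e2] at e3
      have hd2 := hJ.dims (e + 2)
      have hd0 := hJ.dims e
      have hle : finrank K (part (J ⊔ Ideal.span {f}) (e + 2)) ≤
          finrank K (homogeneousSubmodule (Fin n) K (e + 2)) := Submodule.finrank_mono (part_le _ _)
      rw [ciDim, if_neg (by omega), Nat.add_sub_cancel]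
      omega

/-- Quadrics without a common zero contain `k` quadrics forming a regular sequence. -/
lemma exists_stage [IsAlgClosed K] (Q : GI K n) (hQ : Q.NZ) :
    ∀ k ≤ n, ∃ J, Stage Q k J := by
  intro k
  induction k with
  | zero => exact fun _ => ⟨⊥, stage_zero Q⟩
  | succ k ih =>
    intro hk
    obtain ⟨J, hJ⟩ := ih (by omega)
    obtain ⟨f, hf, hreg⟩ := exists_regular Q hQ hJ (by omega)
    refine ⟨_, stage_succ hJ hf hreg fun h0 => ?_⟩
    have h1 : (1 : MvPolynomial (Fin n) K) ∈ J := hreg 1 (by simp [h0])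
    have h2 := hJ.le_span h1
    have hle : Ideal.span (part J 2 : Set (MvPolynomial (Fin n) K)) ≤
        RingHom.ker (constantCoeff (σ := Fin n) (R := K)) :=
      Ideal.span_le.2 fun a ha => IsHomogeneous.coeff_eq_zero (ha.1 : a.IsHomogeneous 2) (by simp)
    simpa using hle h2

/-- The complete intersection as a graded family. -/
noncomputable def partGI (J : Ideal (MvPolynomial (Fin n) K)) : GI K n where
  piece := part J
  le := part_le J
  mul_mem := fun {d v x} hv hx =>
    ⟨by rw [add_comm]; exact mul_mem_homogeneous hv hx.1, J.mul_mem_left v hx.2⟩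

end Vale.Agent.P200.SmallH2
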